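import Crest.Agent.N250.B2.Defs

/-!
# Row 250, block (B2)+(L): the interface for the REAL common cut (helper34)

`f B` = reduced function with all ends cut at the level `B` (`= T(Y)`), `b_j = -2/a_j`,
`u = b_j + d j - B` the distance of the end `j` to the tip.  `Rx` is what the construction delivers;
`cells`, `fam` turn it into a family of full-disc pieces in the sense of `B2.Defs` (rate `c = 1/2`).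
-/

set_option autoImplicit false

open Set Metric Filter Topology Asymptotics Function MeasureTheory

noncomputable section

namespace Crest.Agent.N250.B2

variable {ι κ : Type}

/-- the disc with diameter `[-2/B, 2(1+2δ)/B]` of the `a`-plane -/
def DB (δ B : ℝ) : Set ℂ := ball ((2 * δ / B : ℝ) : ℂ) (2 * (1 + δ) / B)

/-- the domain of `f B` -/
def DomB (r δ : ℝ) (d : κ → ℝ) (B : ℝ) : Set (ι ⊕ κ → ℂ) :=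
  {z | (∀ i, ‖z (Sum.inl i)‖ < r) ∧ ∀ j, z (Sum.inr j) ∈ DB δ (B - d j - 1)}

/-- the universal profile `φ`, its error majorant `M`; `p` = number of ends -/
structure Ker (φ : ℂ → ℂ) (M : ℝ → ℝ) (p : ℕ) (C : ℝ) : Prop where
  cont : ContinuousOn φ {u | -1 ≤ u.re}
  dec : ∀ u : ℂ, -1 ≤ u.re → ‖φ u‖ ≤ C / (1 + ‖u‖) ^ 2
  M_cont : Continuous M
  M_nonneg : ∀ s, 0 ≤ M s
  M_le : ∀ s, M s ≤ C / (1 + |s|) ^ 2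
  pos0 : ∀ d : ℝ, 0 ≤ d →
    0 ≤ (∫ s : ℝ, Complex.exp ((s / 4 : ℝ) * Complex.I) * φ (d + s * Complex.I)).re
  pos : p * ∫ s, M s < (∫ s : ℝ, Complex.exp ((s / 4 : ℝ) * Complex.I) * φ (s * Complex.I)).re

variable [Fintype ι] [Fintype κ]

/-- WHAT THE CONSTRUCTION DELIVERS.  (D1) `∂_B f = ω e^{-B/4} ∑_j m j`; (D0) `crude0`, `crude`;
(P) `sharp`. -/
structure Rx (f : ℝ → (ι ⊕ κ → ℂ) → ℂ) (m : κ → ℝ → (ι ⊕ κ → ℂ) → ℂ) (φ : ℂ → ℂ) (M : ℝ → ℝ)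
    (ω : ℂ) (d : κ → ℝ) (r δ B0 C g : ℝ) : Prop where
  r_pos : 0 < r
  δ_pos : 0 < δ
  δ_le : δ ≤ 1 / 2
  B0_ge : 8 ≤ B0
  d_le : ∀ j, 4 * |d j| ≤ B0
  g_pos : 0 < g
  ω_ne : ω ≠ 0
  ker : Ker φ M (Fintype.card κ) C
  hol : ∀ B, B0 < B → DifferentiableOn ℂ (f B) (DomB r δ d B)
  bdd : ∀ B, B0 < B → ∀ z ∈ DomB r δ d B, ‖f B z‖ ≤ C
  real : ∀ B, B0 < B → ∀ x : ι ⊕ κ → ℝ, ofR x ∈ DomB r δ d B → (f B (ofR x)).im = 0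
  c1 : ContDiffOn ℝ 1 (fun p : ℝ × (ι ⊕ κ → ℂ) => f p.1 p.2) {p | B0 < p.1 ∧ p.2 ∈ DomB r δ d p.1}
  mcont : ∀ j, ContinuousOn (fun p : ℝ × (ι ⊕ κ → ℂ) => m j p.1 p.2)
    {p | B0 < p.1 ∧ p.2 ∈ DomB r δ d p.1}
  der : ∀ B, B0 < B → ∀ z ∈ DomB r δ d B,
    HasDerivAt (fun s : ℝ => f s z) (ω * (Real.exp (-B / 4) : ℂ) * ∑ j, m j B z) B
  crude0 : ∀ B, B0 < B → ∀ z ∈ DomB r δ d B, ∀ j, ‖aa z j‖ ≤ 1 / B →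
    ‖m j B z‖ ≤ C * B ^ (-(1 / 2 + g))
  crude : ∀ B, B0 < B → ∀ z ∈ DomB r δ d B, ∀ (j : κ) (u : ℂ), 1 / B ≤ ‖aa z j‖ →
    aa z j * ((B - d j : ℝ) + u) = -2 → ‖m j B z‖ ≤ C * (((1 + ‖u‖) ^ 2)⁻¹ + B ^ (-(1 / 2 + g)))
  sharp : ∀ V ε : ℝ, 0 < ε → ∃ B1 r2, 0 < r2 ∧ ∀ B, B1 < B → ∀ z ∈ DomB r δ d B, ‖z‖ < r2 →
    ∀ (j : κ) (u : ℂ), aa z j * ((B - d j : ℝ) + u) = -2 → ‖u‖ ≤ V → -1 ≤ u.re →
      ‖m j B z - φ u‖ ≤ M u.im + ε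

/-- full discs of radius `< 1 / B0` -/
def cells (B0 : ℝ) (h : 0 < B0) : Cells ℝ where
  adm ρ := 0 < ρ ∧ ρ < 1 / B0
  dom ρ := ball 0 ρ
  sz ρ := ρ
  disc ρ := ρ
  ρ0 := 1 / B0
  ρ0_pos := by positivity
  isOpen _ _ := isOpen_ball
  sub _ _ := subset_rfl
  sz_lt _ h := h.2
  adm_disc _ h1 h2 := ⟨h1, h2⟩
  dom_disc _ _ _ := rfl
  sz_disc _ _ _ := rfl

/-- the level of the cut used on the polydisc of radius `ρ` -/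
def lev (B0 ρ : ℝ) : ℝ := 2 / ρ - B0 / 4

open Classical in
/-- the pieces: `f` at the level of the largest disc -/
def fam (f : ℝ → (ι ⊕ κ → ℂ) → ℂ) (B0 : ℝ) (U : κ → ℝ) : (ι ⊕ κ → ℂ) → ℂ :=
  f (lev B0 (if Nonempty κ then ‖U‖ else 1 / (2 * B0)))

/-- what (R) gets, on real points -/
def Concl2 (f : ℝ → (ι ⊕ κ → ℂ) → ℂ) : Prop :=
  ∃ (N : ℕ) (μ C r' B1 : ℝ) (f0 : ℂ), 1 < μ ∧ μ ≤ 2 ∧ 0 < C ∧ 0 < r' ∧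
    ∀ B, B1 < B → ‖f B 0 - f0‖ ≤ C * Real.exp (-B / 4) ∧
      ∀ x : ι ⊕ κ → ℝ, ‖x‖ < r' → ‖aa x‖ ≤ 1 / B →
        ‖aa x‖ ^ N ≤ C * (‖fderiv ℂ (f B) (ofR x)‖ + Real.exp (-B / 8)) ∧
        ‖f B (ofR x) - f0‖ ≤ C * (‖fderiv ℂ (f B) (ofR x)‖ + Real.exp (-B / 8)) ^ μ

/-- (NC) no critical formal curve leaves `a = 0` -/
def NC2Stmt : Prop :=
  ∀ (ι κ : Type) [Fintype ι] [Fintype κ] [DecidableEq κ] (f : ℝ → (ι ⊕ κ → ℂ) → ℂ)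
    (m : κ → ℝ → (ι ⊕ κ → ℂ) → ℂ) (φ : ℂ → ℂ) (M : ℝ → ℝ) (ω : ℂ) (d : κ → ℝ) (r δ B0 C g C' : ℝ)
    (hB : 0 < B0) (k : ℕ → (ι ⊕ κ → ℂ) → ℂ) (r1 : ℝ) (P : ℕ → ι ⊕ κ → ℝ),
    Rx f m φ M ω d r δ B0 C g → Wk (cells B0 hB) (fam f B0) r (1 / 2) C' →
    Tr (cells B0 hB) (fam f B0) r (1 / 2) k r1 → Crit k P → False

/-- (GL) the output of the block -/
def GL2Stmt : Prop :=
  ∀ (ι κ : Type) [Fintype ι] [Fintype κ] (f : ℝ → (ι ⊕ κ → ℂ) → ℂ)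
    (m : κ → ℝ → (ι ⊕ κ → ℂ) → ℂ) (φ : ℂ → ℂ) (M : ℝ → ℝ) (ω : ℂ) (d : κ → ℝ) (r δ B0 C g : ℝ),
    Rx f m φ M ω d r δ B0 C g → Concl2 f

end Crest.Agent.N250.B2
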