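import Mathlib

/-!
# Row 250, block (B2)+(L): the cell interface and the statements of the block (helper34)

Coordinates `z : ι ⊕ κ → ℂ` (`inl` = regular variables `y`, `inr j` = the parameter `a_j` of the end `j`).
The reduced function is given by PIECES `F U`, `U : κ → Γ` a choice of a cell for every end.

* `Wk`  : weak class (holomorphic, bounded, comparable with full discs up to `exp (-c/ρ)`, real);
* `Sh`  : sharp structure (log cells, inner jumps, the jump across the negative axis);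
* `Tr`  : analytic truncations `k N`;
* `EXStmt`, `FCStmt`, `NCStmt` : the three leaves; `GLStmt` : what the block hands to (R).
-/

set_option autoImplicit false

open Set Metric Filter Topology Asymptotics Function

noncomputable section

namespace Crest.Agent.N250.B2

/-- one-end cells: open subsets of the `a`-plane with a size; the full discs are among them -/
structure Cells (Γ : Type) where
  adm : Γ → Prop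
  dom : Γ → Set ℂ
  sz : Γ → ℝ
  disc : ℝ → Γ
  ρ0 : ℝ
  ρ0_pos : 0 < ρ0
  isOpen : ∀ γ, adm γ → IsOpen (dom γ)
  sub : ∀ γ, adm γ → dom γ ⊆ ball 0 (sz γ)
  sz_lt : ∀ γ, adm γ → sz γ < ρ0
  adm_disc : ∀ ρ, 0 < ρ → ρ < ρ0 → adm (disc ρ)
  dom_disc : ∀ ρ, 0 < ρ → ρ < ρ0 → dom (disc ρ) = ball 0 ρ
  sz_disc : ∀ ρ, 0 < ρ → ρ < ρ0 → sz (disc ρ) = ρ

variable {ι κ Γ : Type}

/-- the end parameters of a point -/
def aa {K : Type} (z : ι ⊕ κ → K) : κ → K := fun j => z (Sum.inr j)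

/-- real points -/
def ofR {σ : Type} (x : σ → ℝ) : σ → ℂ := fun i => (x i : ℂ)

/-- all cells admissible -/
def Cells.Adm (Q : Cells Γ) (U : κ → Γ) : Prop := ∀ j, Q.adm (U j)

/-- the domain of the piece `U` -/
def Cells.Dom (Q : Cells Γ) (r : ℝ) (U : κ → Γ) : Set (ι ⊕ κ → ℂ) :=
  {z | (∀ i, ‖z (Sum.inl i)‖ < r) ∧ ∀ j, z (Sum.inr j) ∈ Q.dom (U j)}

/-- the error attached to the sizes of the cells -/
def Cells.er [Fintype κ] (Q : Cells Γ) (c : ℝ) (U : κ → Γ) : ℝ := ∑ j, Real.exp (-c / Q.sz (U j))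

variable [Fintype ι] [Fintype κ] [DecidableEq κ]

/-- WEAK CLASS -/
structure Wk (Q : Cells Γ) (F : (κ → Γ) → (ι ⊕ κ → ℂ) → ℂ) (r c C : ℝ) : Prop where
  r_pos : 0 < r
  c_pos : 0 < c
  hol : ∀ U, Q.Adm U → DifferentiableOn ℂ (F U) (Q.Dom r U)
  bdd : ∀ U, Q.Adm U → ∀ z ∈ Q.Dom r U, ‖F U z‖ ≤ C
  cmp : ∀ U, Q.Adm U → ∀ j ρ, Q.sz (U j) ≤ ρ → ρ < Q.ρ0 → ∀ z ∈ Q.Dom r U,
    ‖F U z - F (update U j (Q.disc ρ)) z‖ ≤ C * Real.exp (-c / ρ)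
  real : ∀ ρ, 0 < ρ → ρ < Q.ρ0 → ∀ x : ι ⊕ κ → ℝ, ofR x ∈ Q.Dom r (fun _ : κ => Q.disc ρ) →
    (F (fun _ => Q.disc ρ) (ofR x)).im = 0

/-- admissible centres of log cells (`a = exp (-w)`) -/
def LA (ρ0 ε : ℝ) (w : ℂ) : Prop := 2 * Real.exp (-w.re) < ρ0 ∧ |w.im| < Real.pi + ε

/-- the error allowed in the sharp comparisons of two pieces that differ at the end `j` -/
def err (F : (ι ⊕ κ → ℂ) → ℂ) (e : Γ → ℂ → ℝ) (U : κ → Γ) (j : κ) (k δ c0 : ℝ) (z : ι ⊕ κ → ℂ) : ℝ :=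
  (‖fderiv ℂ F z‖ + ∑ i, e (U i) (aa z i)) * Real.exp (-(k * c0) / ‖aa z j‖) +
    Real.exp (-((1 + δ) * c0) / ‖aa z j‖)

/-- SHARP STRUCTURE: log cells `lg w` = disc of relative radius `η` about `exp (-w)`.  Two pieces that differ
at one end by log cells agree up to `exp (-k c0/|a|)` (`crude`, `crude'`); on the same sheet up to `err`
(`same`); across the negative axis the difference is `q exp (c0/a)` up to `err`, with `q` polynomially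
bounded above and below and in a fixed cone about `ω⁻¹` (`jump`).  `e γ a` is the error carried by a cell. -/
structure Sh (Q : Cells Γ) (F : (κ → Γ) → (ι ⊕ κ → ℂ) → ℂ) (r c C : ℝ) (lg : ℂ → Γ)
    (e : Γ → ℂ → ℝ) (η ε δ k c0 : ℝ) (ν : ℕ) (ω : ℂ) : Prop where
  η_pos : 0 < η
  η_le : η ≤ 1 / 2
  ε_pos : 0 < ε
  δ_pos : 0 < δ
  k_lt : 1 + δ < 2 * k
  k_le : k ≤ 1
  c0_pos : 0 < c0
  adm : ∀ w, LA Q.ρ0 ε w → Q.adm (lg w)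
  dom : ∀ w, LA Q.ρ0 ε w → Q.dom (lg w) = ball (Complex.exp (-w)) (η * Real.exp (-w.re))
  sz : ∀ w, LA Q.ρ0 ε w → Q.sz (lg w) ≤ 2 * Real.exp (-w.re)
  e_lg : ∀ w, LA Q.ρ0 ε w → ∀ a ∈ Q.dom (lg w), e (lg w) a ≤ Real.exp (-(k * c0) / ‖a‖)
  e_disc : ∀ ρ, 0 < ρ → ρ < Q.ρ0 → ∀ a ∈ ball (0 : ℂ) ρ, e (Q.disc ρ) a ≤ Real.exp (-c / ρ)
  crude : ∀ U, Q.Adm U → ∀ j w w', LA Q.ρ0 ε w → LA Q.ρ0 ε w' → ‖w - w'‖ ≤ 1 →
    ∀ z ∈ Q.Dom r (update U j (lg w)), z ∈ Q.Dom r (update U j (lg w')) →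
      ‖F (update U j (lg w)) z - F (update U j (lg w')) z‖ ≤ C * Real.exp (-(k * c0) / ‖aa z j‖)
  crude' : ∀ U, Q.Adm U → ∀ j w, LA Q.ρ0 ε w → LA Q.ρ0 ε (w - 2 * Real.pi * Complex.I) →
    ∀ z ∈ Q.Dom r (update U j (lg w)),
      ‖F (update U j (lg w)) z - F (update U j (lg (w - 2 * Real.pi * Complex.I))) z‖ ≤
        C * Real.exp (-(k * c0) / ‖aa z j‖)
  same : ∀ U, Q.Adm U → ∀ j w w', LA Q.ρ0 ε w → LA Q.ρ0 ε w' → ‖w - w'‖ ≤ 1 →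
    ∀ z ∈ Q.Dom r (update U j (lg w)), z ∈ Q.Dom r (update U j (lg w')) →
      ‖F (update U j (lg w)) z - F (update U j (lg w')) z‖ ≤
        C * err (F (update U j (lg w))) e (update U j (lg w)) j k δ c0 z
  jump : ∀ U, Q.Adm U → ∀ j w, LA Q.ρ0 ε w → LA Q.ρ0 ε (w - 2 * Real.pi * Complex.I) →
    ∀ z ∈ Q.Dom r (update U j (lg w)), ∃ q : ℂ,
      ‖F (update U j (lg w)) z - F (update U j (lg (w - 2 * Real.pi * Complex.I))) z -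
          q * Complex.exp (c0 / aa z j)‖ ≤
        C * err (F (update U j (lg w))) e (update U j (lg w)) j k δ c0 z ∧
      ‖q‖ ≤ C * (‖aa z j‖ ^ ν)⁻¹ ∧ ‖q‖ + ‖aa z j‖ ^ ν ≤ C * (ω * q).re

/-- analytic TRUNCATIONS of the family `F` -/
structure Tr (Q : Cells Γ) (F : (κ → Γ) → (ι ⊕ κ → ℂ) → ℂ) (r c : ℝ)
    (k : ℕ → (ι ⊕ κ → ℂ) → ℂ) (r1 : ℝ) : Prop where
  r1_pos : 0 < r1
  r1_le : r1 ≤ r
  hol : ∀ N, DifferentiableOn ℂ (k N) (ball 0 r1)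
  bdd : ∀ N, ∃ C, ∀ z ∈ ball (0 : ι ⊕ κ → ℂ) r1, ‖k N z‖ ≤ C
  real : ∀ N (x : ι ⊕ κ → ℝ), ‖x‖ < r1 → (k N (ofR x)).im = 0
  step : ∀ N, ∃ C, ∀ z ∈ ball (0 : ι ⊕ κ → ℂ) r1, ‖k (N + 1) z - k N z‖ ≤ C * ‖aa z‖ ^ N
  app : ∀ N, ∃ C, ∀ U, Q.Adm U → ∀ z ∈ Q.Dom r U, ‖z‖ < r1 →
    ‖F U z - k N z‖ ≤ C * (‖aa z‖ ^ N + Q.er c U)

/-- truncation of a formal curve: `∑_{m<N} t^m P m` -/
def tr {K E : Type} [Semiring K] [AddCommMonoid E] [Module K E] (P : ℕ → E) (N : ℕ) (t : K) : E :=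
  ∑ m ∈ Finset.range N, t ^ m • P m

/-- a REAL formal curve through `0`, not contained in `a = 0`, critical for the formal function `(k N)` -/
structure Crit (k : ℕ → (ι ⊕ κ → ℂ) → ℂ) (P : ℕ → ι ⊕ κ → ℝ) : Prop where
  zero : P 0 = 0
  ne : ∃ m j, P m (Sum.inr j) ≠ 0
  crit : ∀ N, (fun t : ℂ => fderiv ℂ (k (N + 1)) (tr (fun m => ofR (P m)) N t)) =O[𝓝 0]
    fun t => t ^ N

/-- what (R) gets, on real points of full-disc pieces -/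
def Concl (Q : Cells Γ) (F : (κ → Γ) → (ι ⊕ κ → ℂ) → ℂ) (c : ℝ) : Prop :=
  ∃ (N : ℕ) (μ C r' : ℝ) (f0 : ℂ), 1 < μ ∧ μ ≤ 2 ∧ 0 < C ∧ 0 < r' ∧
    ∀ ρ, 0 < ρ → ρ < Q.ρ0 → ∀ x : ι ⊕ κ → ℝ, ‖x‖ < r' → ‖aa x‖ ≤ ρ / 2 →
      ‖aa x‖ ^ N ≤ C * (‖fderiv ℂ (F fun _ => Q.disc ρ) (ofR x)‖ + Real.exp (-c / (2 * ρ))) ∧
      ‖F (fun _ => Q.disc ρ) (ofR x) - f0‖ ≤
        C * (‖fderiv ℂ (F fun _ => Q.disc ρ) (ofR x)‖ + Real.exp (-c / (2 * ρ))) ^ μ ∧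
      ‖F (fun _ => Q.disc ρ) 0 - f0‖ ≤ C * Real.exp (-c / ρ)

/-- (EX) expansions from the full discs -/
def EXStmt : Prop :=
  ∀ (ι κ Γ : Type) [Fintype ι] [Fintype κ] [DecidableEq κ] (Q : Cells Γ)
    (F : (κ → Γ) → (ι ⊕ κ → ℂ) → ℂ) (r c C : ℝ), Wk Q F r c C → ∃ k r1, Tr Q F r c k r1

/-- (FC) formal curve selection (real; `g N` = analytic approximations of a pro-analytic map) -/
def FCStmt : Prop :=
  ∀ (ι κ τ : Type) [Fintype ι] [Fintype κ] [Fintype τ] (g : ℕ → (ι ⊕ κ → ℝ) → τ → ℝ),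
    (∀ N, AnalyticAt ℝ (g N) 0) →
    (∀ N, (fun x => g (N + 1) x - g N x) =O[𝓝 0] fun x => ‖aa x‖ ^ N) →
    (∃ (N : ℕ) (C : ℝ), ∀ᶠ x in 𝓝 0, ‖aa x‖ ^ N ≤ C * ‖g (N + 1) x‖) ∨
    ∃ P : ℕ → ι ⊕ κ → ℝ, P 0 = 0 ∧ (∃ m j, P m (Sum.inr j) ≠ 0) ∧
      ∀ N, (fun t : ℝ => g N (tr P N t)) =O[𝓝 0] fun t => t ^ N

/-- (NC) no critical formal curve leaves `a = 0` (Hensel induction + cells along the curve + Stokes) -/
def NCStmt : Prop :=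
  ∀ (ι κ Γ : Type) [Fintype ι] [Fintype κ] [DecidableEq κ] (Q : Cells Γ)
    (F : (κ → Γ) → (ι ⊕ κ → ℂ) → ℂ) (r c C : ℝ) (lg : ℂ → Γ) (e : Γ → ℂ → ℝ) (η ε δ k0 c0 : ℝ)
    (ν : ℕ) (ω : ℂ) (k : ℕ → (ι ⊕ κ → ℂ) → ℂ) (r1 : ℝ) (P : ℕ → ι ⊕ κ → ℝ),
    Wk Q F r c C → Sh Q F r c C lg e η ε δ k0 c0 ν ω → Tr Q F r c k r1 → Crit k P → False

/-- (GL) the output of the block -/
def GLStmt : Prop :=
  ∀ (ι κ Γ : Type) [Fintype ι] [Fintype κ] [DecidableEq κ] (Q : Cells Γ)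
    (F : (κ → Γ) → (ι ⊕ κ → ℂ) → ℂ) (r c C : ℝ) (lg : ℂ → Γ) (e : Γ → ℂ → ℝ) (η ε δ k0 c0 : ℝ)
    (ν : ℕ) (ω : ℂ), Wk Q F r c C → Sh Q F r c C lg e η ε δ k0 c0 ν ω → Concl Q F c

end Crest.Agent.N250.B2
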