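import Crest.Agent.N250.B2.Defs2

/-!
# Row 250, block (B2): elementary consequences of `Rx` (helper34)
-/

set_option autoImplicit false
set_option linter.unusedSectionVars false

open Set Metric Filter Topology Asymptotics Function

noncomputable section

namespace Crest.Agent.N250.B2

variable {ι κ : Type}

theorem DB_mono {δ B B' : ℝ} (hδ : 0 ≤ δ) (hB : 0 < B) (h : B ≤ B') : DB δ B' ⊆ DB δ B := by
  have hB' : 0 < B' := hB.trans_le h
  have h1 : B'⁻¹ ≤ B⁻¹ := inv_anti₀ hB h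
  refine ball_subset_ball' ?_
  rw [dist_eq_norm, ← Complex.ofReal_sub, Complex.norm_real, Real.norm_eq_abs,
    abs_of_nonpos (by simp only [div_eq_mul_inv]; nlinarith)]
  simp only [div_eq_mul_inv]
  nlinarith

theorem ball_sub_DB {δ B : ℝ} (hδ : 0 ≤ δ) (hB : 0 < B) : ball (0 : ℂ) (2 / B) ⊆ DB δ B := by
  refine ball_subset_ball' ?_
  rw [dist_eq_norm, zero_sub, norm_neg, Complex.norm_real, Real.norm_eq_abs,
    abs_of_nonneg (by positivity)]
  exact le_of_eq (by ring)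

theorem DB_sub_ball {δ B : ℝ} (hδ : 0 ≤ δ) (hB : 0 < B) :
    DB δ B ⊆ ball (0 : ℂ) (2 * (1 + 2 * δ) / B) := by
  refine ball_subset_ball' ?_
  rw [dist_eq_norm, sub_zero, Complex.norm_real, Real.norm_eq_abs, abs_of_nonneg (by positivity)]
  exact le_of_eq (by ring)

variable [Fintype ι] [Fintype κ]

theorem isOpen_DomB (r δ : ℝ) (d : κ → ℝ) (B : ℝ) : IsOpen (DomB (ι := ι) r δ d B) := by
  have : DomB (ι := ι) r δ d B = (⋂ i, {z : ι ⊕ κ → ℂ | ‖z (Sum.inl i)‖ < r}) ∩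
      ⋂ j, (fun z : ι ⊕ κ → ℂ => z (Sum.inr j)) ⁻¹' DB δ (B - d j - 1) := by
    ext z; simp [DomB]
  rw [this]
  exact (isOpen_iInter_of_finite fun i => isOpen_lt (by fun_prop) continuous_const).inter
    (isOpen_iInter_of_finite fun j => isOpen_ball.preimage (by fun_prop))

theorem norm_aa_le {K : Type} [SeminormedAddCommGroup K] (z : ι ⊕ κ → K) : ‖aa z‖ ≤ ‖z‖ :=
  (pi_norm_le_iff_of_nonneg (norm_nonneg _)).2 fun _ => norm_le_pi_norm z _

variable {f : ℝ → (ι ⊕ κ → ℂ) → ℂ} {m : κ → ℝ → (ι ⊕ κ → ℂ) → ℂ} {φ : ℂ → ℂ} {M : ℝ → ℝ}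
  {ω : ℂ} {d : κ → ℝ} {r δ B0 C g : ℝ}

namespace Rx

theorem B0_pos (h : Rx f m φ M ω d r δ B0 C g) : 0 < B0 := by linarith [h.B0_ge]

theorem C_nonneg (h : Rx f m φ M ω d r δ B0 C g) : 0 ≤ C := by
  have h1 := h.ker.M_le 0
  have h2 := h.ker.M_nonneg 0
  simp at h1
  linarith

theorem lev_pos (h : Rx f m φ M ω d r δ B0 C g) {B : ℝ} (hB : B0 < B) (j : κ) :
    B / 2 < B - d j - 1 := by
  have := h.d_le j
  have := le_abs_self (d j)
  have := h.B0_ge
  linarith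

theorem lev_le (h : Rx f m φ M ω d r δ B0 C g) (B : ℝ) (j : κ) : B - d j - 1 ≤ B + B0 / 4 - 1 := by
  have := h.d_le j
  have := neg_abs_le (d j)
  linarith

theorem dom_mono (h : Rx f m φ M ω d r δ B0 C g) {B B' : ℝ} (hB : B0 < B) (hBB : B ≤ B') :
    DomB (ι := ι) r δ d B' ⊆ DomB r δ d B := fun _ hz =>
  ⟨hz.1, fun j => DB_mono h.δ_pos.le (by linarith [h.lev_pos hB j, h.B0_pos]) (by linarith)
    (hz.2 j)⟩

/-- polydiscs inside the domain -/
theorem mem_dom (h : Rx f m φ M ω d r δ B0 C g) {B : ℝ} (hB : B0 < B) {z : ι ⊕ κ → ℂ}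
    (h1 : ∀ i, ‖z (Sum.inl i)‖ < r) (h2 : ∀ j, ‖z (Sum.inr j)‖ < 2 / (B + B0 / 4)) :
    z ∈ DomB r δ d B := by
  refine ⟨h1, fun j => ball_sub_DB h.δ_pos.le (by linarith [h.lev_pos hB j, h.B0_pos]) ?_⟩
  rw [mem_ball_zero_iff]
  refine (h2 j).trans_le (div_le_div_of_nonneg_left (by norm_num)
    (by linarith [h.lev_pos hB j, h.B0_pos]) (by linarith [h.lev_le B j]))

/-- the end parameters are `O(1/B)` on the domain -/
theorem aa_lt (h : Rx f m φ M ω d r δ B0 C g) {B : ℝ} (hB : B0 < B) {z : ι ⊕ κ → ℂ}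
    (hz : z ∈ DomB r δ d B) (j : κ) : ‖aa z j‖ < 8 / B := by
  have h0 := h.lev_pos hB j
  have hB0 : 0 < B := h.B0_pos.trans hB
  have h1 := mem_ball_zero_iff.1 (DB_sub_ball h.δ_pos.le (by linarith) (hz.2 j))
  refine h1.trans_le ?_
  rw [div_le_div_iff₀ (by linarith) hB0]
  nlinarith [h.δ_le, h.δ_pos]

theorem rpow_le (h : Rx f m φ M ω d r δ B0 C g) {B : ℝ} (hB : B0 < B) : B ^ (-(1 / 2 + g)) ≤ 1 :=
  Real.rpow_le_one_of_one_le_of_nonpos (by linarith [h.B0_ge]) (by linarith [h.g_pos])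

/-- `crude` without the size condition -/
theorem crude' (h : Rx f m φ M ω d r δ B0 C g) {B : ℝ} (hB : B0 < B) {z : ι ⊕ κ → ℂ}
    (hz : z ∈ DomB r δ d B) (j : κ) (u : ℂ) (hu : aa z j * ((B - d j : ℝ) + u) = -2) :
    ‖m j B z‖ ≤ C * (((1 + ‖u‖) ^ 2)⁻¹ + B ^ (-(1 / 2 + g))) := by
  rcases le_total ‖aa z j‖ (1 / B) with h1 | h1
  · refine (h.crude0 B hB z hz j h1).trans (mul_le_mul_of_nonneg_left ?_ h.C_nonneg)
    have : 0 ≤ ((1 + ‖u‖) ^ 2)⁻¹ := by positivity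
    linarith
  · exact h.crude B hB z hz j u h1 hu

theorem m_le (h : Rx f m φ M ω d r δ B0 C g) {B : ℝ} (hB : B0 < B) {z : ι ⊕ κ → ℂ}
    (hz : z ∈ DomB r δ d B) (j : κ) : ‖m j B z‖ ≤ 2 * C := by
  have h1 := h.rpow_le hB
  have hC := h.C_nonneg
  by_cases h0 : aa z j = 0
  · have hB0 : 0 < B := h.B0_pos.trans hB
    have := h.crude0 B hB z hz j (by rw [h0, norm_zero]; positivity)
    nlinarith
  · have := h.crude' hB hz j (-2 / aa z j - (B - d j : ℝ)) (by field_simp; ring)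
    have h2 : ((1 + ‖-2 / aa z j - ((B - d j : ℝ) : ℂ)‖) ^ 2)⁻¹ ≤ 1 :=
      inv_le_one_of_one_le₀ (one_le_pow₀ (by linarith [norm_nonneg (-2 / aa z j - ((B - d j : ℝ) : ℂ))]))
    nlinarith

/-- (D0) integrated -/
theorem cmp (h : Rx f m φ M ω d r δ B0 C g) {B B' : ℝ} (hB : B0 < B) (hBB : B ≤ B')
    {z : ι ⊕ κ → ℂ} (hz : z ∈ DomB r δ d B') :
    ‖f B' z - f B z‖ ≤ 8 * ‖ω‖ * Fintype.card κ * C * Real.exp (-B / 4) := by
  set K := 8 * ‖ω‖ * Fintype.card κ * C with hK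
  have hC := h.C_nonneg
  have hK0 : 0 ≤ K := by positivity
  have hm : ∀ s ∈ Icc B B', z ∈ DomB r δ d s := fun s hs => h.dom_mono (hB.trans_le hs.1) hs.2 hz
  have hd : ∀ s ∈ Icc B B', HasDerivAt (fun s : ℝ => f s z - f B z)
      (ω * (Real.exp (-s / 4) : ℂ) * ∑ j, m j s z) s := fun s hs =>
    (h.der s (hB.trans_le hs.1) z (hm s hs)).sub_const _
  have hb : ∀ s : ℝ, HasDerivAt (fun s : ℝ => K * (Real.exp (-B / 4) - Real.exp (-s / 4)))
      (K * (Real.exp (-s / 4) / 4)) s := fun s => by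
    have h1 : HasDerivAt (fun s : ℝ => -s / 4) (-1 / 4) s := (hasDerivAt_id s).neg.div_const 4
    have := (h1.exp.const_sub (Real.exp (-B / 4))).const_mul K
    have e : K * (Real.exp (-s / 4) / 4) = K * -(Real.exp (-s / 4) * (-1 / 4)) := by ring
    rw [e]
    exact this
  have key := image_norm_le_of_norm_deriv_right_le_deriv_boundary
    (f := fun s : ℝ => f s z - f B z) (a := B) (b := B')
    (fun s hs => (hd s hs).continuousAt.continuousWithinAt)
    (fun s hs => (hd s (Ico_subset_Icc_self hs)).hasDerivWithinAt) (by simp) hb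
    (fun s hs => by
      have hs' := Ico_subset_Icc_self hs
      rw [norm_mul, norm_mul, Complex.norm_real, Real.norm_eq_abs, abs_of_pos (Real.exp_pos _)]
      have h1 : ‖∑ j, m j s z‖ ≤ Fintype.card κ * (2 * C) := by
        refine (norm_sum_le _ _).trans ?_
        have := Finset.sum_le_card_nsmul Finset.univ (fun j => ‖m j s z‖) (2 * C)
          fun j _ => h.m_le (hB.trans_le hs.1) (hm s hs') j
        simpa [nsmul_eq_mul] using this
      calc ‖ω‖ * Real.exp (-s / 4) * ‖∑ j, m j s z‖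
          ≤ ‖ω‖ * Real.exp (-s / 4) * (Fintype.card κ * (2 * C)) := by gcongr
        _ = K * (Real.exp (-s / 4) / 4) := by rw [hK]; ring)
    (right_mem_Icc.2 hBB)
  have := mul_nonneg hK0 (Real.exp_pos (-B' / 4)).le
  linarith

theorem lt_lev (h : Rx f m φ M ω d r δ B0 C g) {ρ : ℝ} (h0 : 0 < ρ) (h1 : ρ < 1 / B0) :
    B0 < lev B0 ρ := by
  have hB := h.B0_pos
  rw [lt_div_iff₀ hB] at h1
  have : 2 * B0 < 2 / ρ := by rw [lt_div_iff₀ h0]; linarith
  unfold lev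
  linarith

theorem lev_anti {ρ ρ' : ℝ} (h0 : 0 < ρ) (h1 : ρ ≤ ρ') : lev B0 ρ' ≤ lev B0 ρ := by
  have := div_le_div_of_nonneg_left (by norm_num : (0 : ℝ) ≤ 2) h0 h1
  unfold lev
  linarith

theorem mem_lev (h : Rx f m φ M ω d r δ B0 C g) {ρ : ℝ} (h0 : 0 < ρ) (h1 : ρ < 1 / B0)
    {z : ι ⊕ κ → ℂ} (hy : ∀ i, ‖z (Sum.inl i)‖ < r) (ha : ∀ j, ‖z (Sum.inr j)‖ < ρ) :
    z ∈ DomB r δ d (lev B0 ρ) :=
  h.mem_dom (h.lt_lev h0 h1) hy fun j => (ha j).trans_le (le_of_eq (by unfold lev; field_simp; ring))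

end Rx

open Classical in
/-- the radius used by `fam` -/
def rad (B0 : ℝ) (U : κ → ℝ) : ℝ := if Nonempty κ then ‖U‖ else 1 / (2 * B0)

theorem fam_eq (f : ℝ → (ι ⊕ κ → ℂ) → ℂ) (B0 : ℝ) (U : κ → ℝ) :
    fam f B0 U = f (lev B0 (rad B0 U)) := rfl

theorem rad_const [Nonempty κ] {ρ : ℝ} (h : 0 ≤ ρ) : rad B0 (fun _ : κ => ρ) = ρ := by
  rw [rad, if_pos ‹Nonempty κ›, pi_norm_const, Real.norm_of_nonneg h]

theorem fam_const [Nonempty κ] {ρ : ℝ} (h : 0 ≤ ρ) :
    fam f B0 (fun _ : κ => ρ) = f (lev B0 ρ) := by rw [fam_eq, rad_const h]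

theorem le_rad {U : κ → ℝ} (j : κ) : U j ≤ rad B0 U := by
  rw [rad, if_pos ⟨j⟩]
  exact (le_abs_self _).trans (norm_le_pi_norm U j)

theorem rad_mem (hB : 0 < B0) {U : κ → ℝ} (hU : (cells B0 hB).Adm U) :
    0 < rad B0 U ∧ rad B0 U < 1 / B0 := by
  by_cases hk : Nonempty κ
  · obtain ⟨j⟩ := hk
    refine ⟨(hU j).1.trans_le (le_rad j), ?_⟩
    rw [rad, if_pos ⟨j⟩]
    refine (pi_norm_lt_iff (by positivity)).2 fun i => ?_
    rw [Real.norm_of_nonneg (hU i).1.le]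
    exact (hU i).2
  · rw [rad, if_neg hk]
    exact ⟨by positivity, one_div_lt_one_div_of_lt hB (by linarith)⟩

theorem Rx.mem_fam (h : Rx f m φ M ω d r δ B0 C g) (hB : 0 < B0) {U : κ → ℝ}
    (hU : (cells B0 hB).Adm U) {z : ι ⊕ κ → ℂ} (hz : z ∈ (cells B0 hB).Dom r U) :
    z ∈ DomB r δ d (lev B0 (rad B0 U)) :=
  h.mem_lev (rad_mem hB hU).1 (rad_mem hB hU).2 hz.1 fun j =>
    (mem_ball_zero_iff.1 (hz.2 j)).trans_le (le_rad j)

theorem exp_lev (ρ : ℝ) : Real.exp (-lev B0 ρ / 4) = Real.exp (B0 / 16) * Real.exp (-(1 / 2) / ρ) := by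
  rw [← Real.exp_add]
  congr 1
  unfold lev
  ring

/-- the full-disc pieces form a weak family with rate `1/2` -/
theorem Rx.wk [DecidableEq κ] (h : Rx f m φ M ω d r δ B0 C g) (hB : 0 < B0) :
    Wk (cells B0 hB) (fam f B0) r (1 / 2)
      (C + 8 * ‖ω‖ * Fintype.card κ * C * Real.exp (B0 / 16)) := by
  have hC := h.C_nonneg
  have hK : 0 ≤ 8 * ‖ω‖ * Fintype.card κ * C * Real.exp (B0 / 16) := by positivity
  refine ⟨h.r_pos, by norm_num, fun U hU => ?_, fun U hU z hz => ?_, fun U hU j ρ h1 h2 z hz => ?_,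
    fun ρ h0 h1 x hx => ?_⟩
  · exact (h.hol _ (h.lt_lev (rad_mem hB hU).1 (rad_mem hB hU).2)).mono fun z hz =>
      h.mem_fam hB hU hz
  · exact (h.bdd _ (h.lt_lev (rad_mem hB hU).1 (rad_mem hB hU).2) z (h.mem_fam hB hU hz)).trans
      (by linarith)
  · have h1' : U j ≤ ρ := h1
    have hρ : 0 < ρ := (hU j).1.trans_le h1'
    have hV : (cells B0 hB).Adm (update U j ρ) := fun i => by
      rcases eq_or_ne i j with rfl | hi
      · rw [update_self]; exact ⟨hρ, h2⟩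
      · rw [update_of_ne hi]; exact hU i
    have hle : rad B0 U ≤ rad B0 (update U j ρ) := by
      have e : rad B0 U = ‖U‖ := if_pos ⟨j⟩
      rw [e]
      refine (pi_norm_le_iff_of_nonneg (rad_mem hB hV).1.le).2 fun i => ?_
      rw [Real.norm_of_nonneg (hU i).1.le]
      refine le_trans ?_ (le_rad (B0 := B0) (U := update U j ρ) i)
      rcases eq_or_ne i j with rfl | hi
      · rw [update_self]; exact h1'
      · rw [update_of_ne hi]
    have hex : 0 ≤ Real.exp (-(1 / 2) / ρ) := (Real.exp_pos _).le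
    change ‖fam f B0 U z - fam f B0 (update U j ρ) z‖ ≤ _
    rcases le_total ρ (rad B0 U) with h3 | h3
    · have e : rad B0 (update U j ρ) = rad B0 U := by
        refine le_antisymm ?_ hle
        have e : rad B0 (update U j ρ) = ‖update U j ρ‖ := if_pos ⟨j⟩
        rw [e]
        refine (pi_norm_le_iff_of_nonneg (rad_mem hB hU).1.le).2 fun i => ?_
        rw [Real.norm_of_nonneg (hV i).1.le]
        rcases eq_or_ne i j with rfl | hi
        · rw [update_self]; exact h3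
        · rw [update_of_ne hi]; exact le_rad i
      rw [fam_eq, fam_eq, e, sub_self, norm_zero]
      positivity
    · have e : rad B0 (update U j ρ) = ρ := by
        refine le_antisymm ?_ (by simpa using le_rad (B0 := B0) (U := update U j ρ) j)
        have e : rad B0 (update U j ρ) = ‖update U j ρ‖ := if_pos ⟨j⟩
        rw [e]
        refine (pi_norm_le_iff_of_nonneg hρ.le).2 fun i => ?_
        rw [Real.norm_of_nonneg (hV i).1.le]
        rcases eq_or_ne i j with rfl | hi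
        · rw [update_self]
        · rw [update_of_ne hi]; exact (le_rad i).trans h3
      rw [fam_eq, fam_eq, e]
      have := h.cmp (h.lt_lev hρ h2) (Rx.lev_anti (rad_mem hB hU).1 h3) (h.mem_fam hB hU hz)
      rw [exp_lev] at this
      nlinarith [mul_nonneg hC hex]
  · have hU : (cells B0 hB).Adm (fun _ : κ => ρ) := fun _ => ⟨h0, h1⟩
    exact h.real _ (h.lt_lev (rad_mem hB hU).1 (rad_mem hB hU).2) x (h.mem_fam hB hU hx)

end Crest.Agent.N250.B2
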