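import Crest.Agent.N250.B2.Gl0
import Crest.Agent.N250.EX.Main
import Crest.Agent.N250.L.FC
import Crest.Agent.N250.L.Loj

/-!
# Row 250, block (B2)+(L): `gl2_of : NC2Stmt → GL2Stmt` (helper34)
-/

set_option autoImplicit false
set_option linter.unusedSectionVars false

open Set Metric Filter Topology Asymptotics Function

noncomputable section

namespace Crest.Agent.N250.B2

variable {ι κ Γ : Type} [Fintype ι] [Fintype κ] [DecidableEq κ]

section dich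

variable {Q : Cells Γ} {F : (κ → Γ) → (ι ⊕ κ → ℂ) → ℂ} {r c r1 : ℝ} {k : ℕ → (ι ⊕ κ → ℂ) → ℂ}

/-- the dichotomy for the truncations -/
theorem Tr.dich (h : Tr Q F r c k r1) :
    (∃ (N : ℕ) (C : ℝ), ∀ᶠ x : ι ⊕ κ → ℝ in 𝓝 0,
      ‖aa x‖ ^ N ≤ C * ‖fderiv ℂ (k (N + 2)) (ofR x)‖) ∨ ∃ P, Crit k P := by
  classical
  have hp := h.r1_pos
  have han : ∀ N, AnalyticAt ℂ (k N) 0 := fun N => an_zero hp (h.hol N)
  have hsm : ∀ᶠ x : ι ⊕ κ → ℝ in 𝓝 0, ‖x‖ < r1 / 2 := by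
    filter_upwards [ball_mem_nhds (0 : ι ⊕ κ → ℝ) (half_pos hp)] with x hx
    exact mem_ball_zero_iff.1 hx
  refine (FC.fcStmt ι κ (ι ⊕ κ) (fun N => gr (k (N + 1))) (fun N => an_gr (han _))
    fun N => ?_).imp ?_ ?_
  · obtain ⟨C, hC⟩ := h.step (N + 1)
    refine IsBigO.of_bound (2 * |C| * 3 ^ (N + 1)) ?_
    filter_upwards [hsm] with x hx
    have hx' : ‖ofR x‖ < r1 / 2 := by rwa [norm_ofR]
    have hm : ball (0 : ι ⊕ κ → ℂ) r1 ∈ 𝓝 (ofR x) :=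
      isOpen_ball.mem_nhds (mem_ball_zero_iff.2 (by linarith))
    have h1 := fd_step ((h.hol (N + 2)).sub (h.hol (N + 1))) hC hx'
    have h2 : gr (k (N + 1 + 1)) x - gr (k (N + 1)) x = gr (k (N + 2) - k (N + 1)) x := by
      funext i
      simp only [gr, Pi.sub_apply]
      rw [fderiv_sub ((h.hol _).differentiableAt hm) ((h.hol _).differentiableAt hm)]
      simp
    rw [h2, Real.norm_of_nonneg (by positivity), ← norm_aa_ofR]
    exact (norm_gr_le _ _).trans h1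
  · rintro ⟨N, C, hC⟩
    refine ⟨N, |C|, hC.mono fun x hx => hx.trans ?_⟩
    exact (mul_le_mul_of_nonneg_right (le_abs_self C) (norm_nonneg _)).trans
      (mul_le_mul_of_nonneg_left (norm_gr_le _ _) (abs_nonneg C))
  · rintro ⟨P, h0, hne, hP⟩
    refine ⟨P, h0, hne, fun N => ?_⟩
    have e0 : tr (fun m => ofR (P m)) N (0 : ℂ) = 0 := tr_zero (by rw [h0, ofR_zero]) N
    have hi : ∀ i, (fun t : ℂ => fderiv ℂ (k (N + 1)) (tr (fun m => ofR (P m)) N t) (Pi.single i 1))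
        =O[𝓝 0] fun t => t ^ N := fun i => by
      refine isBigO_of_real ((an_fd (han _) i).comp_of_eq (an_tr _ N 0) e0) ?_
      have t0 : Tendsto (fun t : ℝ => tr P N t) (𝓝 0) (𝓝 0) :=
        (by unfold tr; fun_prop : Continuous fun t : ℝ => tr P N t).tendsto' _ _ (tr_zero h0 N)
      refine IsBigO.trans (IsBigO.of_bound 1 ?_) (hP N)
      filter_upwards [t0.eventually hsm] with t ht
      have him := im_fderiv (h.hol (N + 1)) (h.real (N + 1)) (x := tr P N t) (by linarith)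
        (Pi.single i 1)
      rw [ofR_single] at him
      rw [one_mul, comp_apply, ofR_tr, ← Complex.abs_re_eq_norm.2 him]
      exact norm_le_pi_norm (gr (k (N + 1)) (tr P N t)) i
    have hs := IsBigO.sum (s := Finset.univ) fun i _ => (hi i).norm_left
    refine IsBigO.trans (IsBigO.of_bound 1 (Eventually.of_forall fun t => ?_)) hs
    rw [one_mul, Finset.sum_apply]
    exact (norm_le_sum _).trans (le_abs_self _)

end dich

variable {f : ℝ → (ι ⊕ κ → ℂ) → ℂ} {m : κ → ℝ → (ι ⊕ κ → ℂ) → ℂ} {φ : ℂ → ℂ} {M : ℝ → ℝ}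
  {ω : ℂ} {d : κ → ℝ} {r δ B0 C g r1 : ℝ} {k : ℕ → (ι ⊕ κ → ℂ) → ℂ}

/-- the truncations approximate `f B` on the polydisc -/
theorem Rx.app (h : Rx f m φ M ω d r δ B0 C g) {hB : 0 < B0}
    (hT : Tr (cells B0 hB) (fam f B0) r (1 / 2) k r1) (N : ℕ) :
    ∃ K, 0 ≤ K ∧ ∀ B, 2 * B0 < B → ∀ z : ι ⊕ κ → ℂ, ‖z‖ < r1 → ‖aa z‖ < 2 / (B + B0 / 4) →
      z ∈ DomB r δ d B ∧ ‖f B z - k N z‖ ≤ K * (‖aa z‖ ^ N + Real.exp (-B / 4)) := by
  obtain ⟨K, hK⟩ := hT.app N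
  refine ⟨|K| * (1 + Fintype.card κ), by positivity, fun B hBB z hz ha => ?_⟩
  set ρ := 2 / (B + B0 / 4) with hρ
  have hρ0 : 0 < ρ := div_pos two_pos (by linarith)
  have hρ1 : ρ < 1 / B0 := by rw [hρ, div_lt_div_iff₀ (by linarith) hB]; linarith
  have hl : lev B0 ρ = B := by
    have : B + B0 / 4 ≠ 0 := by linarith
    rw [lev, hρ]; field_simp; ring
  have hy : ∀ i, ‖z (Sum.inl i)‖ < r := fun i => ((norm_le_pi_norm z _).trans_lt hz).trans_le hT.r1_le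
  have hj : ∀ j, ‖z (Sum.inr j)‖ < ρ := fun j => (norm_le_pi_norm (aa z) j).trans_lt ha
  have hzB : z ∈ DomB r δ d B := h.mem_dom (by linarith) hy hj
  have hU : (cells B0 hB).Adm (fun _ : κ => ρ) := fun _ => ⟨hρ0, hρ1⟩
  have hzU : z ∈ (cells B0 hB).Dom r (fun _ : κ => ρ) := ⟨hy, fun j => mem_ball_zero_iff.2 (hj j)⟩
  have h1 := hK _ hU z hzU hz
  have e1 : fam f B0 (fun _ : κ => ρ) z = f B z := by
    cases isEmpty_or_nonempty κ with
    | inr hk => rw [fam_const hρ0.le, hl]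
    | inl hk =>
      have h2 := h.mem_fam hB hU hzU
      have h3 := h.lt_lev (rad_mem hB hU).1 (rad_mem hB hU).2
      rw [fam_eq]
      rcases le_total B (lev B0 (rad B0 fun _ : κ => ρ)) with h4 | h4
      · have := h.cmp (by linarith) h4 h2
        simpa [sub_eq_zero] using this
      · have := h.cmp h3 h4 hzB
        symm
        simpa [sub_eq_zero] using this
  have e2 : (cells B0 hB).er (1 / 2) (fun _ : κ => ρ) ≤ Fintype.card κ * Real.exp (-B / 4) := by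
    have h2 := exp_lev (B0 := B0) ρ
    rw [hl] at h2
    have h3 : 1 ≤ Real.exp (B0 / 16) := Real.one_le_exp (by positivity)
    have h4 := Real.exp_pos (-(1 / 2) / ρ)
    have h5 : Real.exp (-(1 / 2) / ρ) ≤ Real.exp (-B / 4) := by nlinarith
    simp only [Cells.er, cells, Finset.sum_const, Finset.card_univ, nsmul_eq_mul]
    gcongr
  have e3 : 0 ≤ (cells B0 hB).er (1 / 2) (fun _ : κ => ρ) :=
    Finset.sum_nonneg fun _ _ => (Real.exp_pos _).le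
  refine ⟨hzB, ?_⟩
  rw [e1] at h1
  have p1 : 0 ≤ ‖aa z‖ ^ N := by positivity
  have p2 := (Real.exp_pos (-B / 4)).le
  have p3 : (0 : ℝ) ≤ Fintype.card κ := by positivity
  calc _ ≤ |K| * (‖aa z‖ ^ N + (cells B0 hB).er (1 / 2) fun _ : κ => ρ) :=
        h1.trans (mul_le_mul_of_nonneg_right (le_abs_self K) (by positivity))
    _ ≤ |K| * ((1 + Fintype.card κ) * (‖aa z‖ ^ N + Real.exp (-B / 4))) := by
        gcongr
        nlinarith [mul_nonneg p3 p1]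
    _ = _ := by ring

theorem exp_small {B : ℝ} (hB : 256 ≤ B) : Real.exp (-B / 8) ≤ 1 / (2 * B) := by
  have h1 := Real.pow_div_factorial_le_exp (B / 8) (by positivity) 2
  rw [neg_div, Real.exp_neg, ← one_div, one_div_le_one_div (Real.exp_pos _) (by positivity)]
  refine le_trans ?_ h1
  norm_num [Nat.factorial]
  nlinarith

/-- the same for the gradients -/
theorem Rx.app_fd (h : Rx f m φ M ω d r δ B0 C g) {hB : 0 < B0}
    (hT : Tr (cells B0 hB) (fam f B0) r (1 / 2) k r1) (n : ℕ) :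
    ∃ K, 0 ≤ K ∧ ∀ B, max (max (2 * B0) 256) (1 / r1) < B → ∀ z : ι ⊕ κ → ℂ, ‖z‖ < r1 / 2 →
      ‖aa z‖ ≤ 1 / B → ‖fderiv ℂ (f B) z - fderiv ℂ (k (n + 2)) z‖ ≤
        K * (‖aa z‖ ^ (n + 1) + Real.exp (-B / 8)) := by
  obtain ⟨K, hK0, hK⟩ := h.app hT (n + 2)
  refine ⟨2 * K * (3 ^ (n + 2) + 1), by positivity, fun B hBB z hz ha => ?_⟩
  simp only [max_lt_iff] at hBB
  obtain ⟨⟨b1, b2⟩, b3⟩ := hBB
  have hp := hT.r1_pos
  have hB0 : 0 < B := by linarith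
  set e := Real.exp (-B / 8) with he
  have e0 : 0 < e := Real.exp_pos _
  have e1 : e ≤ 1 / (2 * B) := exp_small b2.le
  have e2 : Real.exp (-B / 4) = e * e := by rw [he, ← Real.exp_add]; congr 1; ring
  have i1 : 1 / (2 * B) = 1 / B / 2 := by field_simp
  have i2 : 1 / B < r1 := by rw [div_lt_iff₀ hB0]; rw [div_lt_iff₀ hp] at b3; linarith
  have i3 : 1 / B ≤ 1 := by rw [div_le_one hB0]; linarith
  have i4 : 1 / B + 1 / B / 2 ≤ 2 / (B + B0 / 4) := by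
    rw [show 1 / B + 1 / B / 2 = 3 / (2 * B) by field_simp; ring,
      div_le_div_iff₀ (by linarith) (by linarith)]
    linarith
  set τ := max (‖aa z‖ / 2) e with hτ
  have τ0 : 0 < τ := e0.trans_le (le_max_right _ _)
  have τ1 : τ ≤ 1 / B / 2 := max_le (by linarith) (by linarith)
  have τ2 : ‖aa z‖ ≤ 2 * τ := by linarith [le_max_left (‖aa z‖ / 2) e]
  have hw : ∀ w ∈ ball z τ, ‖w‖ < r1 ∧ ‖aa w‖ < 2 / (B + B0 / 4) := fun w hw => by
    have h1 : ‖aa (w - z)‖ ≤ ‖w - z‖ := norm_aa_le _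
    have h2 : aa w = aa z + aa (w - z) := by funext j; simp [aa]
    rw [mem_ball, dist_eq_norm] at hw
    refine ⟨by linarith [norm_le_norm_sub_add w z], ?_⟩
    rw [h2]
    linarith [norm_add_le (aa z) (aa (w - z))]
  have d1 : DifferentiableOn ℂ (f B) (ball z τ) :=
    (h.hol B (by linarith)).mono fun w h1 => (hK B b1 w (hw w h1).1 (hw w h1).2).1
  have d2 : DifferentiableOn ℂ (k (n + 2)) (ball z τ) :=
    (hT.hol _).mono fun w h1 => mem_ball_zero_iff.2 (hw w h1).1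
  have h1 := fd_bound (n := n + 1) τ0 hK0 τ2 (d1.sub d2)
    fun w h1 => (hK B b1 w (hw w h1).1 (hw w h1).2).2
  rw [fderiv_sub (d1.differentiableAt (ball_mem_nhds z τ0))
    (d2.differentiableAt (ball_mem_nhds z τ0))] at h1
  refine h1.trans ?_
  have p1 : 0 ≤ ‖aa z‖ ^ (n + 1) := by positivity
  have h2 : τ ^ (n + 1) ≤ ‖aa z‖ ^ (n + 1) + e := by
    rcases le_total (‖aa z‖ / 2) e with h3 | h3
    · rw [hτ, max_eq_right h3]
      have : e ^ (n + 1) ≤ e := pow_le_of_le_one e0.le (by linarith) (by omega)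
      linarith
    · rw [hτ, max_eq_left h3]
      have : (‖aa z‖ / 2) ^ (n + 1) ≤ ‖aa z‖ ^ (n + 1) :=
        pow_le_pow_left₀ (by positivity) (by linarith [norm_nonneg (aa z)]) _
      linarith
  have h3 : Real.exp (-B / 4) / τ ≤ e := by
    rw [e2, div_le_iff₀ τ0]
    exact mul_le_mul_of_nonneg_left (le_max_right _ _) e0.le
  calc 2 * K * (3 ^ (n + 1 + 1) * τ ^ (n + 1) + Real.exp (-B / 4) / τ)
      ≤ 2 * K * (3 ^ (n + 1 + 1) * (‖aa z‖ ^ (n + 1) + e) + (‖aa z‖ ^ (n + 1) + e)) := by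
        gcongr
        linarith
    _ = _ := by ring

theorem arith1 {A K1 D e a p n : ℝ} (A0 : 0 ≤ A) (k1 : 0 ≤ K1) (D0 : 0 ≤ D) (e0 : 0 ≤ e) (a0 : 0 ≤ a)
    (p0 : 0 ≤ p) (a2 : a * (2 * A * K1 + 1) ≤ 1) (t1 : p ≤ A * n) (n1 : n ≤ D + K1 * (p * a + e)) :
    p ≤ (2 * A * (1 + K1) + 1) * (D + e) := by
  have t0 := t1.trans (mul_le_mul_of_nonneg_left n1 A0)
  have t2 : p * (a * (2 * A * K1 + 1)) ≤ p * 1 := mul_le_mul_of_nonneg_left a2 p0
  have t3 : 0 ≤ p * a := by positivity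
  have t4 : 0 ≤ A * K1 * D := by positivity
  have t5 : 0 ≤ A * e := by positivity
  nlinarith

theorem arith2 {K2 D e p p' C1 : ℝ} (k2 : 0 ≤ K2) (D0 : 0 ≤ D) (e0 : 0 ≤ e) (t1 : p' ≤ p)
    (r1 : p ≤ C1 * (D + e)) : D + K2 * (p' + e) ≤ (1 + K2 * (C1 + 1)) * (D + e) := by
  have t2 : K2 * (p' + e) ≤ K2 * (C1 * (D + e) + (D + e)) :=
    mul_le_mul_of_nonneg_left (by linarith) k2
  nlinarith

theorem Rx.concl (h : Rx f m φ M ω d r δ B0 C g) {hB : 0 < B0}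
    (hT : Tr (cells B0 hB) (fam f B0) r (1 / 2) k r1) {N : ℕ} {C0 : ℝ}
    (hN : ∀ᶠ x : ι ⊕ κ → ℝ in 𝓝 0, ‖aa x‖ ^ N ≤ C0 * ‖fderiv ℂ (k (N + 2)) (ofR x)‖) :
    Concl2 f := by
  have hp := hT.r1_pos
  obtain ⟨K1, k1, hK1⟩ := h.app_fd hT N
  obtain ⟨K2, k2, hK2⟩ := h.app_fd hT (2 * N)
  obtain ⟨K3, k3, hK3⟩ := h.app hT (2 * N + 2)
  obtain ⟨θ, L, θ1, θ2, hL, hθ⟩ := Mo.loj_grad (an_kr (an_zero hp (hT.hol (2 * N + 2))))
  obtain ⟨s, s0, hs⟩ := Metric.eventually_nhds_iff.1 (hN.and hθ)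
  have θ0 : 0 < θ := by linarith
  set A := |C0| with hA
  have A0 : 0 ≤ A := abs_nonneg _
  set C1 := 2 * A * (1 + K1) + 1 with hC1
  have c1 : 1 ≤ C1 := by have : 0 ≤ 2 * A * (1 + K1) := by positivity
                         linarith
  set C2 := L * (1 + K2 * (C1 + 1)) with hC2
  have c2 : 0 < C2 := by positivity
  have μ1 : 1 < θ⁻¹ := (one_lt_inv₀ θ0).2 θ2
  have μ2 : θ⁻¹ ≤ 2 := by rw [inv_le_comm₀ θ0 two_pos]; linarith
  have μ0 : 0 ≤ θ⁻¹ := by linarith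
  have q1 : 0 ≤ C1 ^ θ⁻¹ := by positivity
  have q2 : 0 ≤ C2 ^ θ⁻¹ := by positivity
  have q3 : K3 ≤ K3 * (C1 ^ θ⁻¹ + 1) := le_mul_of_one_le_right k3 (by linarith)
  refine ⟨N, θ⁻¹, C1 + K3 * (C1 ^ θ⁻¹ + 1) + C2 ^ θ⁻¹, min (min s (r1 / 2)) (1 / (2 * A * K1 + 1)),
    max (max (2 * B0) 256) (1 / r1), k (2 * N + 2) 0, μ1, μ2, by positivity, by positivity,
    fun B hBB => ?_⟩
  have hBB' := hBB
  simp only [max_lt_iff] at hBB'
  obtain ⟨⟨b1, b2⟩, -⟩ := hBB'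
  have hB0 : 0 < B := by linarith
  have i4 : 1 / B < 2 / (B + B0 / 4) := by
    rw [div_lt_div_iff₀ hB0 (by linarith)]
    linarith
  refine ⟨?_, fun x hx ha => ?_⟩
  · have a0 : aa (0 : ι ⊕ κ → ℂ) = 0 := rfl
    have := (hK3 B b1 0 (by simpa using hp) (by rw [a0, norm_zero]; positivity)).2
    rw [a0, norm_zero, zero_pow (by omega), zero_add] at this
    exact this.trans (mul_le_mul_of_nonneg_right (by linarith) (Real.exp_pos _).le)
  simp only [lt_min_iff] at hx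
  obtain ⟨⟨x1, x2⟩, x3⟩ := hx
  obtain ⟨h1, h2⟩ := hs (y := x) (by rwa [dist_zero_right])
  have z1 : ‖ofR x‖ < r1 / 2 := by rwa [norm_ofR]
  have z2 : ‖aa (ofR x)‖ ≤ 1 / B := by rwa [norm_aa_ofR]
  have g1 := hK1 B hBB _ z1 z2
  have g2 := hK2 B hBB _ z1 z2
  have g3 := (hK3 B b1 _ (by linarith) (z2.trans_lt i4)).2
  rw [norm_aa_ofR] at g1 g2 g3
  set D := ‖fderiv ℂ (f B) (ofR x)‖ with hD
  set e := Real.exp (-B / 8) with he
  set a := ‖aa x‖ with haa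
  have D0 : 0 ≤ D := norm_nonneg _
  have e0 : 0 < e := Real.exp_pos _
  have e1 : e ≤ 1 := Real.exp_le_one_iff.2 (by linarith)
  have e2 : Real.exp (-B / 4) = e ^ 2 := by rw [he, ← Real.exp_nat_mul]; congr 1; push_cast; ring
  have a0 : 0 ≤ a := norm_nonneg _
  have a1 : a ≤ 1 := ha.trans (by rw [div_le_one hB0]; linarith)
  have a2 : a * (2 * A * K1 + 1) ≤ 1 := by
    have := ((norm_aa_le x).trans x3.le)
    rwa [le_div_iff₀ (by positivity)] at this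
  have p0 : 0 ≤ a ^ N := by positivity
  have p1 : a ^ N ≤ 1 := pow_le_one₀ a0 a1
  have n1 : ‖fderiv ℂ (k (N + 2)) (ofR x)‖ ≤ D + K1 * (a ^ (N + 1) + e) := by
    linarith [norm_le_norm_add_norm_sub' (fderiv ℂ (k (N + 2)) (ofR x)) (fderiv ℂ (f B) (ofR x)),
      norm_sub_rev (fderiv ℂ (k (N + 2)) (ofR x)) (fderiv ℂ (f B) (ofR x))]
  have n2 : ‖fderiv ℂ (k (2 * N + 2)) (ofR x)‖ ≤ D + K2 * (a ^ (2 * N + 1) + e) := by
    linarith [norm_le_norm_add_norm_sub' (fderiv ℂ (k (2 * N + 2)) (ofR x)) (fderiv ℂ (f B) (ofR x)),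
      norm_sub_rev (fderiv ℂ (k (2 * N + 2)) (ofR x)) (fderiv ℂ (f B) (ofR x))]
  have r1' : a ^ N ≤ C1 * (D + e) :=
    arith1 A0 k1 D0 e0.le a0 p0 a2
      (h1.trans (mul_le_mul_of_nonneg_right (le_abs_self C0) (norm_nonneg _)))
      (by rwa [pow_succ] at n1)
  have w0 : 0 < D + e := by linarith
  have w1 : 0 ≤ (D + e) ^ θ⁻¹ := by positivity
  refine ⟨r1'.trans (mul_le_mul_of_nonneg_right (by linarith) w0.le), ?_⟩
  have dk : DifferentiableAt ℂ (k (2 * N + 2)) (ofR x) :=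
    (hT.hol _).differentiableAt (isOpen_ball.mem_nhds (mem_ball_zero_iff.2 (by linarith)))
  have l1 : |kr (k (2 * N + 2)) x - kr (k (2 * N + 2)) 0| ^ θ ≤ C2 * (D + e) := by
    refine h2.trans ((mul_le_mul_of_nonneg_left ((norm_fderiv_kr dk).trans n2) hL.le).trans ?_)
    have t1 : a ^ (2 * N + 1) ≤ a ^ N := pow_le_pow_of_le_one a0 a1 (by omega)
    rw [hC2, mul_assoc]
    exact mul_le_mul_of_nonneg_left (arith2 k2 D0 e0.le t1 r1') hL.le
  have l2 : ‖k (2 * N + 2) (ofR x) - k (2 * N + 2) 0‖ ≤ C2 ^ θ⁻¹ * (D + e) ^ θ⁻¹ := by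
    have t1 := hT.real (2 * N + 2) x (by linarith)
    have t2 := hT.real (2 * N + 2) 0 (by simpa using hp)
    have t3 : (k (2 * N + 2) (ofR x) - k (2 * N + 2) (ofR 0)).im = 0 := by simp [t1, t2]
    rw [← ofR_zero, ← Complex.abs_re_eq_norm.2 t3, ← Real.mul_rpow c2.le w0.le, Complex.sub_re,
      Real.le_rpow_inv_iff_of_pos (abs_nonneg _) (by positivity) θ0]
    exact l1
  have l3 : a ^ (2 * N + 2) ≤ C1 ^ θ⁻¹ * (D + e) ^ θ⁻¹ := by
    rw [← Real.mul_rpow (by linarith) w0.le]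
    calc a ^ (2 * N + 2) ≤ (a ^ N) ^ 2 := by
          rw [← pow_mul]; exact pow_le_pow_of_le_one a0 a1 (by omega)
      _ = (a ^ N) ^ (2 : ℝ) := by rw [Real.rpow_two]
      _ ≤ (a ^ N) ^ θ⁻¹ := Real.rpow_le_rpow_of_exponent_ge' p0 p1 μ0 μ2
      _ ≤ _ := Real.rpow_le_rpow p0 r1' μ0
  have l4 : Real.exp (-B / 4) ≤ (D + e) ^ θ⁻¹ := by
    calc _ = e ^ (2 : ℝ) := by rw [e2, Real.rpow_two]
      _ ≤ e ^ θ⁻¹ := Real.rpow_le_rpow_of_exponent_ge e0 e1 μ2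
      _ ≤ _ := Real.rpow_le_rpow e0.le (by linarith) μ0
  have l5 : K3 * (a ^ (2 * N + 2) + Real.exp (-B / 4)) ≤
      K3 * (C1 ^ θ⁻¹ * (D + e) ^ θ⁻¹ + (D + e) ^ θ⁻¹) := by gcongr
  have l6 := norm_sub_le_norm_sub_add_norm_sub (f B (ofR x)) (k (2 * N + 2) (ofR x))
    (k (2 * N + 2) 0)
  have l7 := mul_nonneg (by linarith : 0 ≤ C1) w1
  linarith

omit [DecidableEq κ] in
theorem gl2_of (hN : NC2Stmt) : GL2Stmt := by
  classical
  intro ι κ _ _ f m φ M ω d r δ B0 C g h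
  have hW := h.wk h.B0_pos
  obtain ⟨k, r1, hT⟩ := EX.exStmt ι κ ℝ _ _ _ _ _ hW
  rcases hT.dich with ⟨N, C0, h1⟩ | ⟨P, hP⟩
  · exact h.concl hT h1
  · exact (hN ι κ f m φ M ω d r δ B0 C g _ h.B0_pos k r1 P h hW hT hP).elim

end Crest.Agent.N250.B2
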