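import Crest.Agent.N250.B2.Defs
import Crest.Agent.N250.W.Flat
import Crest.Agent.N250.W.Wat

/-!
# Row 250, block (B2): the three parts of `NCStmt` (helper34)

`HNStmt` (Hensel induction along the formal curve), `CVStmt` (cells along the curve give a one variable
package `OV`), `STStmt` (the package is contradictory); `nc_of` is the compiled glue.
-/

set_option autoImplicit false

open Set Metric Filter Topology Asymptotics Function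

noncomputable section

namespace Crest.Agent.N250.B2

variable {ι κ Γ : Type} [Fintype ι] [Fintype κ] [DecidableEq κ]

/-- the truncated curve at a complex parameter -/
def cv (P : ℕ → ι ⊕ κ → ℝ) (N : ℕ) (t : ℂ) : ι ⊕ κ → ℂ := tr (fun m => ofR (P m)) N t

/-- the piece `U` is adapted to the parameter `t` -/
def Ad (Q : Cells Γ) (r : ℝ) (P : ℕ → ι ⊕ κ → ℝ) (K : ℕ) (Λ : ℝ) (U : κ → Γ) (t : ℂ) : Prop :=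
  Q.Adm U ∧ t ≠ 0 ∧ (∀ j, Q.sz (U j) ≤ Λ * ‖t‖) ∧ ball (cv P (K + 1) t) (‖t‖ ^ K) ⊆ Q.Dom r U

/-- the open set of parameters near which `U` is adapted -/
def Om (Q : Cells Γ) (r : ℝ) (P : ℕ → ι ⊕ κ → ℝ) (K : ℕ) (Λ r2 : ℝ) (U : κ → Γ) : Set ℂ :=
  interior {t | Ad Q r P K Λ U t} ∩ ball 0 r2

/-- output of the Hensel induction: almost critical points `Z U t` of the pieces -/
structure Hn (Q : Cells Γ) (F : (κ → Γ) → (ι ⊕ κ → ℂ) → ℂ) (r : ℝ) (P : ℕ → ι ⊕ κ → ℝ) (K : ℕ)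
    (Λ r2 : ℝ) (f0 : ℂ) (Z : (κ → Γ) → ℂ → ι ⊕ κ → ℂ) (μ : ℕ) (C : ℝ) : Prop where
  r2_pos : 0 < r2
  near : ∀ U, ∀ t ∈ Om Q r P K Λ r2 U, ‖Z U t - cv P (K + 1) t‖ ≤ C * ‖t‖ ^ (K + 1)
  hol : ∀ U, DifferentiableOn ℂ (Z U) (Om Q r P K Λ r2 U)
  flat : ∀ n : ℕ, ∃ C', ∀ U, ∀ t ∈ Om Q r P K Λ r2 U,
    ‖fderiv ℂ (F U) (Z U t)‖ ≤ C' * ‖t‖ ^ n ∧ ‖F U (Z U t) - f0‖ ≤ C' * ‖t‖ ^ n
  jmp : ∀ U V, ∀ t ∈ Om Q r P K Λ r2 U, t ∈ Om Q r P K Λ r2 V → ∀ e : ℝ,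
    (∀ z ∈ ball (cv P (K + 1) t) (‖t‖ ^ K), ‖F U z - F V z‖ ≤ e) →
      ‖Z U t - Z V t‖ ≤ C * e / ‖t‖ ^ μ

/-- (HN) -/
def HNStmt : Prop :=
  ∀ (ι κ Γ : Type) [Fintype ι] [Fintype κ] [DecidableEq κ] (Q : Cells Γ)
    (F : (κ → Γ) → (ι ⊕ κ → ℂ) → ℂ) (r c C : ℝ) (k : ℕ → (ι ⊕ κ → ℂ) → ℂ) (r1 : ℝ)
    (P : ℕ → ι ⊕ κ → ℝ), Wk Q F r c C → Tr Q F r c k r1 → Crit k P → ∀ (K : ℕ) (Λ : ℝ), 1 ≤ K →
      ∃ r2 f0 Z μ C', Hn Q F r P K Λ r2 f0 Z μ C'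

/-- ONE VARIABLE PACKAGE at the Stokes ray `im w = 0`; `ξ w = 1/t`, `ξ ^ q = ± e^w`; `c` = rate of the
largest end `j0`, `p j` = the real polynomial part of the exponent of the end `j` on this ray. -/
structure OV {D : Type} [Fintype D] (H Gp Gm : ℂ → ℂ) (R c L ε : ℝ) (q ν : ℕ) (θ : ℝ) (ω : ℂ)
    (p : D → Polynomial ℝ) (j0 : D) (s o : D → ℂ → ℂ) (C : ℝ) : Prop where
  c_pos : 0 < c
  c_lt : c < L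
  ε_pos : 0 < ε
  ε_le : ε ≤ 1 / 2
  q_pos : 0 < q
  deg : ∀ j, (p j).natDegree ≤ q
  top : ((p j0).coeff q : ℂ) * Complex.exp (θ * Complex.I) = -c
  flat : ∀ N : ℕ, ∃ C', ∀ w : ℂ, R < w.re → ‖H w‖ ≤ C' * Real.exp (-N * w.re)
  apx : ∀ γ < 1, ∃ η C', 0 < η ∧
    W.Apx {w | R < w.re} η H fun w => C' * Real.exp (-(γ * c) * Real.exp w.re)
  apxp : ∃ η, 0 < η ∧ W.Apx (W.HS R (-ε) 1) η Gp fun w => C * Real.exp (-L * Real.exp w.re)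
  apxm : ∃ η, 0 < η ∧ W.Apx (W.HS R (-1) ε) η Gm fun w => C * Real.exp (-L * Real.exp w.re)
  cmpp : ∀ γ < 1, ∃ C', ∀ w ∈ W.HS R (-ε) 1,
    ‖Gp w - H w‖ ≤ C' * Real.exp (-(γ * c * Real.cos ε) * Real.exp w.re)
  cmpm : ∀ γ < 1, ∃ C', ∀ w ∈ W.HS R (-1) ε,
    ‖Gm w - H w‖ ≤ C' * Real.exp (-(γ * c * Real.cos ε) * Real.exp w.re)
  jump : ∀ w ∈ W.HS R (-ε) ε,
    ‖Gp w - Gm w - ∑ j, s j w * Complex.exp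
        (Polynomial.aeval (Complex.exp ((w + θ * Complex.I) / q)) (p j) + o j w)‖ ≤
      C * Real.exp (-L * Real.exp w.re)
  s_le : ∀ j, ∀ w ∈ W.HS R (-ε) ε, ‖s j w‖ ≤ C * Real.exp (ν * w.re)
  s_ge : ∀ j, ∀ w ∈ W.HS R (-ε) ε, ‖s j w‖ + Real.exp (-ν * w.re) ≤ C * (ω * s j w).re
  o_le : ∀ j, ∀ w ∈ W.HS R (-ε) ε, ‖o j w‖ ≤ C * Real.exp (-w.re / q)

/-- (ST) -/
def STStmt : Prop :=
  ∀ (D : Type) [Fintype D] (H Gp Gm : ℂ → ℂ) (R c L ε : ℝ) (q ν : ℕ) (θ : ℝ) (ω : ℂ)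
    (p : D → Polynomial ℝ) (j0 : D) (s o : D → ℂ → ℂ) (C : ℝ),
    OV H Gp Gm R c L ε q ν θ ω p j0 s o C → False

/-- (CV) -/
def CVStmt : Prop :=
  ∀ (ι κ Γ : Type) [Fintype ι] [Fintype κ] [DecidableEq κ] (Q : Cells Γ)
    (F : (κ → Γ) → (ι ⊕ κ → ℂ) → ℂ) (r c C : ℝ) (lg : ℂ → Γ) (e : Γ → ℂ → ℝ) (η ε δ k0 c0 : ℝ)
    (ν : ℕ) (ω : ℂ) (P : ℕ → ι ⊕ κ → ℝ),
    Wk Q F r c C → Sh Q F r c C lg e η ε δ k0 c0 ν ω → P 0 = 0 → (∃ m j, P m (Sum.inr j) ≠ 0) →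
    (∀ (K : ℕ) (Λ : ℝ), 1 ≤ K → ∃ r2 f0 Z μ C', Hn Q F r P K Λ r2 f0 Z μ C') →
    ∃ (D : Type) (_ : Fintype D) (H Gp Gm : ℂ → ℂ) (R c' L ε' : ℝ) (q ν' : ℕ) (θ : ℝ) (ω' : ℂ)
      (p : D → Polynomial ℝ) (j0 : D) (s o : D → ℂ → ℂ) (C' : ℝ),
      OV H Gp Gm R c' L ε' q ν' θ ω' p j0 s o C'

theorem nc_of (hH : HNStmt) (hC : CVStmt) (hS : STStmt) : NCStmt := by
  intro ι κ Γ _ _ _ Q F r c C lg e η ε δ k0 c0 ν ω k r1 P hW hSh hT hP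
  obtain ⟨D, _, H, Gp, Gm, R, c', L, ε', q, ν', θ, ω', p, j0, s, o, C', h⟩ :=
    hC ι κ Γ Q F r c C lg e η ε δ k0 c0 ν ω P hW hSh hP.zero hP.ne
      (hH ι κ Γ Q F r c C k r1 P hW hT hP)
  exact hS D H Gp Gm R c' L ε' q ν' θ ω' p j0 s o C' h

end Crest.Agent.N250.B2
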