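import Crest.Agent.N250.Hn.Main
import Crest.Agent.N250.B2.Stm

/-!
Row 250, block B2 (helper31): `HNStmt` from the Hensel induction.
-/

set_option autoImplicit false
set_option linter.unusedSectionVars false
set_option linter.unusedVariables false

open Set Metric Filter Topology Asymptotics Function

noncomputable section

namespace Crest.Agent.N250.B2

open Crest.Agent.N250.Hn

namespace HN

variable {ι κ Γ : Type} [Fintype ι] [Fintype κ] [DecidableEq κ]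

/-- the rescaling about the truncated curve -/
def sc (P : ℕ → ι ⊕ κ → ℝ) (K : ℕ) (x : ℂ × (ι ⊕ κ → ℂ)) : ι ⊕ κ → ℂ :=
  cv P (K + 1) x.1 + x.1 ^ K • x.2

/-- the formal point in the rescaled coordinates -/
def pp (P : ℕ → ι ⊕ κ → ℝ) (K N : ℕ) (t : ℂ) : ι ⊕ κ → ℂ :=
  ∑ m ∈ Finset.range N, t ^ (m + 1) • ofR (P (K + 1 + m))

variable {P : ℕ → ι ⊕ κ → ℝ} {K : ℕ}

lemma an_cv (N : ℕ) (t : ℂ) : AnalyticAt ℂ (cv P N) t :=
  Finset.analyticAt_fun_sum (f := fun m (t : ℂ) => t ^ m • ofR (P m)) (Finset.range N) fun m _ =>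
    (analyticAt_id.pow m).smul analyticAt_const

lemma cv_zero (h : P 0 = 0) (N : ℕ) : cv P N 0 = 0 :=
  Finset.sum_eq_zero (s := Finset.range N) fun m _ => by
    rcases m with _ | m
    · ext i; simp [h, ofR]
    · simp

lemma an_sc (x : ℂ × (ι ⊕ κ → ℂ)) : AnalyticAt ℂ (sc P K) x :=
  ((an_cv _ _).comp analyticAt_fst).add ((analyticAt_fst.pow K).smul analyticAt_snd)

lemma sc_zero (h : P 0 = 0) (hK : 1 ≤ K) (z : ι ⊕ κ → ℂ) : sc P K (0, z) = 0 := by
  simp [sc, cv_zero h, Nat.one_le_iff_ne_zero.1 hK]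

lemma sc_pp (N : ℕ) (t : ℂ) : sc P K (t, pp P K N t) = cv P (K + 1 + N) t := by
  simp only [sc, cv, tr, pp, Finset.sum_range_add _ (K + 1), Finset.smul_sum, smul_smul, ← pow_add]
  congr 1
  exact Finset.sum_congr rfl fun m _ => by rw [add_assoc, add_comm 1]

lemma sc_mem {t : ℂ} (ht : t ≠ 0) {z : ι ⊕ κ → ℂ} {s : ℝ} (hz : ‖z‖ < s) :
    sc P K (t, z) ∈ ball (cv P (K + 1) t) (‖t‖ ^ K * s) := by
  rw [mem_ball_iff_norm, sc, add_sub_cancel_left, norm_smul, norm_pow]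
  exact mul_lt_mul_of_pos_left hz (pow_pos (norm_pos_iff.2 ht) K)

lemma fd_sc {f : (ι ⊕ κ → ℂ) → ℂ} {t : ℂ} {z : ι ⊕ κ → ℂ}
    (h : DifferentiableAt ℂ f (sc P K (t, z))) :
    fderiv ℂ (fun y => f (sc P K (t, y))) z = t ^ K • fderiv ℂ f (sc P K (t, z)) := by
  have h1 : HasFDerivAt (fun y => sc P K (t, y)) (t ^ K • ContinuousLinearMap.id ℂ _) z :=
    ((hasFDerivAt_id z).const_smul (t ^ K)).const_add (cv P (K + 1) t)
  refine (h.hasFDerivAt.comp z h1).fderiv.trans ?_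
  ext1 v
  simp

lemma isBigO_of_deriv {φ : ℂ → ℂ} (h : AnalyticAt ℂ φ 0) {n : ℕ}
    (hd : deriv φ =O[𝓝 0] fun t : ℂ => t ^ n) : (fun t => φ t - φ 0) =O[𝓝 0] fun t => t ^ n := by
  obtain ⟨C, hC, hb⟩ := hd.exists_pos
  obtain ⟨r, hr, h1⟩ := Metric.eventually_nhds_iff_ball.1 (hb.bound.and h.eventually_analyticAt)
  refine IsBigO.of_bound C ?_
  filter_upwards [ball_mem_nhds (0 : ℂ) (lt_min hr one_pos)] with t ht
  have ht' := lt_min_iff.1 (mem_ball_zero_iff.1 ht)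
  have hs : closedBall (0 : ℂ) ‖t‖ ⊆ ball 0 r := closedBall_subset_ball ht'.1
  have := (convex_closedBall (0 : ℂ) ‖t‖).norm_image_sub_le_of_norm_deriv_le (f := φ)
    (C := C * ‖t ^ n‖) (fun z hz => (h1 z (hs hz)).2.differentiableAt) (fun z hz =>
      (h1 z (hs hz)).1.trans (by
        rw [norm_pow, norm_pow]
        gcongr
        exact mem_closedBall_zero_iff.1 hz)) (mem_closedBall_self (norm_nonneg _))
    (mem_closedBall_zero_iff.2 le_rfl)
  rw [sub_zero] at this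
  exact this.trans (mul_le_of_le_one_right (by positivity) ht'.2.le)

variable {Q : Cells Γ} {F : (κ → Γ) → (ι ⊕ κ → ℂ) → ℂ} {r c C r1 Λ : ℝ}
  {k : ℕ → (ι ⊕ κ → ℂ) → ℂ}

lemma er_le (hc : 0 < c) {U : κ → Γ} {t : ℂ} (h : Ad Q r P K Λ U t) (N : ℕ) :
    Q.er c U ≤ Fintype.card κ * (N.factorial * (|Λ| / c) ^ N) * ‖t‖ ^ N := by
  refine (Finset.sum_le_card_nsmul _ _ (N.factorial * (|Λ| / c) ^ N * ‖t‖ ^ N) fun j _ => ?_).trans
    (by simp [mul_assoc])
  have h0 : 0 < Q.sz (U j) := pos_of_mem_ball (Q.sub _ (h.1 j)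
    ((h.2.2.2 (mem_ball_self (pow_pos (norm_pos_iff.2 h.2.1) K))).2 j))
  have h1 := Real.pow_div_factorial_le_exp (c / Q.sz (U j)) (by positivity) N
  have h2 : Q.sz (U j) ≤ |Λ| * ‖t‖ := (h.2.2.1 j).trans (by gcongr; exact le_abs_self _)
  rw [neg_div, Real.exp_neg]
  refine (inv_anti₀ (by positivity) h1).trans ?_
  rw [inv_div, div_eq_mul_inv, ← inv_pow, inv_div, mul_assoc, ← mul_pow, div_mul_eq_mul_div]
  gcongr

/-- the cover by the adapted pieces -/
def cov (Q : Cells Γ) (F : (κ → Γ) → (ι ⊕ κ → ℂ) → ℂ) (r : ℝ) (P : ℕ → ι ⊕ κ → ℝ) (K : ℕ) (Λ : ℝ)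
    (h : ∀ s > 0, ∃ U, ∃ w ∈ interior {t | Ad Q r P K Λ U t}, ‖w‖ < s) : Cov (κ → Γ) where
  Ω U := interior {t | Ad Q r P K Λ U t}
  τ w := w
  ε U V t := sSup ((fun z => ‖F U z - F V z‖) '' ball (cv P (K + 1) t) (‖t‖ ^ K))
  isOpen _ := isOpen_interior
  diff _ := differentiableOn_id
  ne _ _ hw := (interior_subset hw).2.1
  acc := h

variable {h : ∀ s > 0, ∃ U, ∃ w ∈ interior {t | Ad Q r P K Λ U t}, ‖w‖ < s}

lemma ad {U : κ → Γ} {t : ℂ} (ht : t ∈ (cov Q F r P K Λ h).Ω U) : Ad Q r P K Λ U t :=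
  interior_subset (s := {t | Ad Q r P K Λ U t}) ht

lemma ev_ad : ∀ᶠ x in (cov Q F r P K Λ h).F ×ˢ 𝓝 (0 : ι ⊕ κ → ℂ), Ad Q r P K Λ x.1.1 x.1.2 ∧
    sc P K (x.1.2, x.2) ∈ ball (cv P (K + 1) x.1.2) (‖x.1.2‖ ^ K) :=
  ev_of_ball one_pos ((Cov.evF _).2 ⟨1, one_pos, fun U w hw _ z hz =>
    ⟨ad hw, by simpa using sc_mem (ad hw).2.1 (mem_ball_zero_iff.1 hz)⟩⟩)

lemma dif (hW : Wk Q F r c C) {U : κ → Γ} {t : ℂ} (ha : Ad Q r P K Λ U t) {z : ι ⊕ κ → ℂ}
    (hz : z ∈ ball (cv P (K + 1) t) (‖t‖ ^ K)) : DifferentiableAt ℂ (F U) z :=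
  ((hW.hol U ha.1).mono ha.2.2.2).differentiableAt (isOpen_ball.mem_nhds hz)

lemma an_k (hT : Tr Q F r c k r1) (N : ℕ) : AnalyticAt ℂ (k N) 0 :=
  R266.SCV.analyticOnNhd_of_differentiableOn isOpen_ball (hT.hol N) 0 (mem_ball_self hT.r1_pos)

lemma asy (hW : Wk Q F r c C) (hT : Tr Q F r c k r1) (h0 : P 0 = 0) (hK : 1 ≤ K) (N : ℕ) :
    (fun x : ((κ → Γ) × ℂ) × (ι ⊕ κ → ℂ) => F x.1.1 (sc P K (x.1.2, x.2)) -
      k N (sc P K (x.1.2, x.2))) =O[(cov Q F r P K Λ h).F ×ˢ 𝓝 0] fun x => ‖x.1.2‖ ^ N := by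
  obtain ⟨C', hC⟩ := hT.app N
  obtain ⟨S, hS, e⟩ := div_fst (an_sc (P := P) (K := K) 0) (.of_forall (sc_zero h0 hK))
  have t1 := tT (E := ι ⊕ κ → ℂ) (cov Q F r P K Λ h)
  have t2 : Tendsto (sc P K) (𝓝 0) (𝓝 0) := by
    simpa [ContinuousAt, show sc P K 0 = 0 from sc_zero h0 hK 0] using
      (an_sc (P := P) (K := K) 0).continuousAt
  refine IsBigO.of_bound (|C'| * ((‖S 0‖ + 1) ^ N +
    Fintype.card κ * (N.factorial * (|Λ| / c) ^ N))) ?_
  filter_upwards [ev_ad, t1.eventually e, (t2.comp t1).eventually (ball_mem_nhds _ hT.r1_pos),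
    (hS.continuousAt.norm.tendsto.comp t1).eventually (gt_mem_nhds (lt_add_one _))]
    with x a1 a2 a3 a4
  refine (hC _ a1.1.1 _ (a1.1.2.2.2 a1.2) (mem_ball_zero_iff.1 a3)).trans ?_
  have b1 : ‖aa (sc P K (x.1.2, x.2))‖ ≤ (‖S 0‖ + 1) * ‖x.1.2‖ := by
    refine le_trans ((pi_norm_le_iff_of_nonneg (norm_nonneg (sc P K (x.1.2, x.2)))).2
      fun j => norm_le_pi_norm (sc P K (x.1.2, x.2)) (.inr j)) ?_
    rw [show sc P K (x.1.2, x.2) = _ from a2, norm_smul, mul_comm]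
    exact mul_le_mul_of_nonneg_right (le_of_lt a4) (norm_nonneg _)
  have b2 := er_le hW.c_pos a1.1 N
  have b3 : 0 ≤ Q.er c x.1.1 := Finset.sum_nonneg fun _ _ => (Real.exp_pos _).le
  rw [norm_pow, norm_norm, mul_assoc, add_mul, ← mul_pow]
  gcongr
  exact le_abs_self _

lemma cf (hW : Wk Q F r c C) (hT : Tr Q F r c k r1) (h0 : P 0 = 0) (hK : 1 ≤ K) :
    CF (cov Q F r P K Λ h) fun U x => F U (sc P K x) where
  hol := hol_of_diff (F := fun U x => F U (sc P K x)) (ev_ad.mono fun x hx =>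
    (dif hW hx.1 hx.2).comp _ (an_sc _).differentiableAt)
  jump := ⟨0, IsBigO.of_bound 1 (by
    filter_upwards [(tJ₁ _).eventually ev_ad, (tJ₂ _).eventually ev_ad] with x a1 a2
    rw [one_mul, Cov.g, pow_zero, one_mul]
    refine le_trans (le_csSup ⟨C + C, ?_⟩
      (mem_image_of_mem (fun z => ‖F x.1.1 z - F x.1.2.1 z‖) a1.2)) (le_abs_self _)
    rintro _ ⟨z, hz, rfl⟩
    exact (norm_sub_le _ _).trans (add_le_add (hW.bdd _ a1.1.1 z (a1.1.2.2.2 hz))
      (hW.bdd _ a2.1.1 z (a2.1.2.2.2 hz))))⟩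
  asy N := ⟨fun x => k N (sc P K x), (an_k hT N).comp_of_eq (an_sc 0) (sc_zero h0 hK 0),
    asy hW hT h0 hK N⟩

lemma fp : FP (cov Q F r P K Λ h) (pp P K) where
  ana N := Finset.analyticAt_fun_sum _ fun m _ => (analyticAt_id.pow _).smul analyticAt_const
  zero N := by simp [pp]
  coh N := by
    simp only [pp, Finset.sum_range_succ, add_sub_cancel_left]
    refine IsBigO.trans (smulO (π := fun q => q) (n := 0) (N + 1) ?_)
      (Cov.powO _ tendsto_id (by omega))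
    simpa using isBigO_const_one ℝ _ _

lemma k_zero (hT : Tr Q F r c k r1) (N : ℕ) : k (N + 1) 0 = k 1 0 := by
  induction N with
  | zero => rfl
  | succ N ih =>
    obtain ⟨C', h⟩ := hT.step (N + 1)
    have := h 0 (mem_ball_self hT.r1_pos)
    rw [show aa (0 : ι ⊕ κ → ℂ) = 0 from rfl, norm_zero, zero_pow N.succ_ne_zero, mul_zero,
      norm_le_zero_iff, sub_eq_zero] at this
    rw [this, ih]

lemma van0 (hW : Wk Q F r c C) (hT : Tr Q F r c k r1) (hP : Crit k P) (hK : 1 ≤ K) :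
    Van (cov Q F r P K Λ h) (fun U x => F U (sc P K x) - k 1 0) (pp P K) := fun N => by
  set n := K + 1 + N
  have a1 := (asy (h := h) hW hT hP.zero hK (n + 1)).comp_tendsto (tendsto_id.prodMk (fp.tend N))
  have a0 := (an_k hT (n + 1)).comp_of_eq (an_cv (P := P) n 0) (cv_zero hP.zero n)
  have a2 := (isBigO_of_deriv a0 (n := n) (by
    have b1 := (an_cv (P := P) n 0).deriv.continuousAt.tendsto.isBigO_one ℝ
    have b2 : Tendsto (cv P n) (𝓝 0) (𝓝 0) := by
      simpa [ContinuousAt, cv_zero hP.zero] using (an_cv (P := P) n 0).continuousAt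
    refine IsBigO.trans (IsBigO.of_bound' ?_) (isBigO_norm_right.1
      (((hP.crit n).norm_norm.mul b1.norm_left).congr_right fun t => mul_one _))
    filter_upwards [b2.eventually (an_k hT (n + 1)).eventually_analyticAt] with t ht
    rw [(ht.differentiableAt.hasFDerivAt.comp_hasDerivAt t
      (an_cv n t).differentiableAt.hasDerivAt).deriv]
    exact (ContinuousLinearMap.le_opNorm _ _).trans (le_abs_self _))).comp_tendsto
      (cov Q F r P K Λ h).tF
  refine ((a1.trans (Cov.powO _ tendsto_id (show N ≤ n + 1 by omega))).add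
    ((a2.trans (isBigO_norm_right.2 (isBigO_refl _ _))).congr_right (fun _ => norm_pow _ _) |>.trans
      (Cov.powO _ tendsto_id (show N ≤ n by omega)))).congr_left fun q => ?_
  simp [cov, sc_pp, n, cv_zero hP.zero, k_zero hT]

lemma van1 [DecidableEq ι] (hW : Wk Q F r c C) (hT : Tr Q F r c k r1) (hP : Crit k P) (hK : 1 ≤ K)
    (i : ι ⊕ κ) : Van (cov Q F r P K Λ h) (pd i fun U x => F U (sc P K x)) (pp P K) := fun N => by
  set n := K + 1 + N
  have hk := (an_k hT (n + 1)).comp_of_eq (an_sc (P := P) (K := K) 0) (sc_zero hP.zero hK 0)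
  have d1 := (cf (h := h) hW hT hP.zero hK).sl
  have d2 := ana_slice (c := cov Q F r P K Λ h) hk
  have t1 := tendsto_id.prodMk ((fp (F := F) (h := h)).tend N)
  have a1 := (cauchyO (G := fun (q : (κ → Γ) × ℂ) y => F q.1 (sc P K (q.2, y)) -
    k (n + 1) (sc P K (q.2, y))) (b := fun q => ‖q.2‖ ^ (n + 1)) ((d1.and d2).mono fun x hx =>
      hx.1.sub hx.2) (asy hW hT hP.zero hK (n + 1))).comp_tendsto t1
  have b2 : Tendsto (cv P n) (𝓝 0) (𝓝 0) := by
    simpa [ContinuousAt, cv_zero hP.zero] using (an_cv (P := P) n 0).continuousAt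
  have a2 := smulO (c := cov Q F r P K Λ h) (π := fun q => q) K
    ((((hP.crit n).comp_tendsto (cov Q F r P K Λ h).tF).trans
      (isBigO_norm_right.2 (isBigO_refl _ _))).congr_right fun _ => norm_pow _ _)
  refine IsBigO.trans (((ContinuousLinearMap.apply ℂ ℂ (Pi.single i 1 : ι ⊕ κ → ℂ)).isBigO_comp
    _ _).congr' ?_ EventuallyEq.rfl) ((a1.trans (Cov.powO _ tendsto_id
      (show N ≤ n + 1 by omega))).add (a2.trans (Cov.powO _ tendsto_id (show N ≤ K + n by omega))))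
  filter_upwards [t1.eventually d1, t1.eventually d2, (b2.comp (cov Q F r P K Λ h).tF).eventually
    (an_k hT (n + 1)).eventually_analyticAt] with q c1 c2 c3
  have c4 := fd_sc (P := P) (K := K) (f := k (n + 1)) (t := q.2) (z := pp P K N q.2)
    (by rw [sc_pp]; exact c3.differentiableAt)
  rw [sc_pp] at c4
  exact congrArg (fun L : (ι ⊕ κ → ℂ) →L[ℂ] ℂ => L (Pi.single i 1))
    (((congrArg₂ (· + ·) (fderiv_fun_sub c1 c2) c4.symm)).trans (sub_add_cancel _ _))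

/-- from germs to a fixed radius -/
lemma unif {c' : Cov (κ → Γ)} {f : (κ → Γ) × ℂ → ℝ} {A r2 : ℝ} {n : ℕ}
    (h1 : ∀ U, ∀ t ∈ c'.Ω U, ‖c'.τ t‖ < r2 → f (U, t) * ‖c'.τ t‖ ^ K ≤ A)
    (h2 : f =O[c'.F] fun q => ‖c'.τ q.2‖ ^ n) :
    ∃ C', 0 ≤ C' ∧ ∀ U, ∀ t ∈ c'.Ω U, ‖c'.τ t‖ < r2 → f (U, t) ≤ C' * ‖c'.τ t‖ ^ n := by
  obtain ⟨B, hB, hb⟩ := h2.exists_pos
  obtain ⟨s, hs, h3⟩ := c'.evF.1 hb.bound
  refine ⟨B + |A| / s ^ (K + n), by positivity, fun U t ht hr => ?_⟩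
  have p0 := norm_pos_iff.2 (c'.ne U t ht)
  rw [add_mul]
  by_cases h4 : ‖c'.τ t‖ < s
  · have := h3 U t ht h4
    rw [norm_pow, norm_norm] at this
    exact ((le_abs_self _).trans this).trans (le_add_of_nonneg_right (by positivity))
  · refine le_trans ?_ (le_add_of_nonneg_left (by positivity))
    refine ((le_div_iff₀ (by positivity)).2 ((h1 U t ht hr).trans (le_abs_self A))).trans ?_
    rw [div_mul_eq_mul_div, div_le_div_iff₀ (by positivity) (by positivity), mul_assoc, ← pow_add,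
      add_comm n]
    gcongr
    exact not_lt.1 h4

end HN

open HN

/-- (HN) -/
theorem hnStmt : HNStmt := by
  intro ι κ Γ _ _ _ Q F r c C k r1 P hW hT hP K Λ hK
  classical
  by_cases h : ∀ s > 0, ∃ U, ∃ w ∈ interior {t | Ad Q r P K Λ U t}, ‖w‖ < s
  swap
  · push Not at h
    obtain ⟨s, hs, h⟩ := h
    have e : ∀ U, ∀ t ∈ Om Q r P K Λ s U, False := fun U t ht =>
      absurd (mem_ball_zero_iff.1 ht.2) (not_lt.2 (h U t ht.1))
    exact ⟨s, 0, 0, 0, 0, hs, fun U t ht => (e U t ht).elim, fun U t ht => (e U t ht).elim,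
      fun n => ⟨0, fun U t ht => (e U t ht).elim⟩, fun U V t ht => (e U t ht).elim⟩
  have hc := cf (h := h) hW hT hP.zero hK
  obtain ⟨Z, z1, z2, z3, z4⟩ := hensel (c := cov Q F r P K Λ h)
    (H := fun o : Option (ι ⊕ κ) => o.elim (fun U x => F U (sc P K x) - k 1 0)
      fun i => pd i fun U x => F U (sc P K x))
    (fun o => by
      cases o
      exacts [hc.sub (CF.of_ana (K := fun _ => k 1 0) analyticAt_const), hc.pd _]) fp
    (fun o => by cases o; exacts [van0 hW hT hP hK, van1 hW hT hP hK _]) 1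
  obtain ⟨ν, z5⟩ := z1.jump
  obtain ⟨C1, hC1, y1⟩ := ((z3.add (fp.one 1)).congr_left fun q => sub_add_cancel _ _).exists_pos
  obtain ⟨C2, hC2, y2⟩ := z5.exists_pos
  obtain ⟨s1, hs1, y3⟩ := (Cov.evF _).1 (y1.bound.and (z1.hol.and ((Cov.le_one _).and
    (z2.eventually (ball_mem_nhds 0 one_half_pos)))))
  obtain ⟨s2, hs2, y4⟩ := (Cov.evJ _).1 y2.bound
  have hm : ∀ {U t}, t ∈ Om Q r P K Λ (min s1 s2) U → ‖t‖ < s1 ∧ ‖t‖ < s2 := fun ht =>
    lt_min_iff.1 (mem_ball_zero_iff.1 ht.2)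
  refine ⟨min s1 s2, k 1 0, fun U t => sc P K (t, Z U t), ν, C1 + C2, lt_min hs1 hs2,
    fun U t ht => ?_, fun U t ht => ?_, fun n => ?_, fun U V t ht ht' e he => ?_⟩
  · have := (y3 U t ht.1 (hm ht).1).1
    rw [norm_pow, norm_norm, pow_one] at this
    rw [sc, add_sub_cancel_left, norm_smul, norm_pow, pow_succ, mul_left_comm]
    exact mul_le_mul_of_nonneg_left (this.trans (mul_le_mul_of_nonneg_right
      (le_add_of_nonneg_right hC2.le) (norm_nonneg _))) (by positivity)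
  · exact ((an_sc _).comp (f := fun t => (t, Z U t))
      (analyticAt_id.prod (y3 U t ht.1 (hm ht).1).2.1)).differentiableAt.differentiableWithinAt
  · have m1 : ∀ U, ∀ t ∈ (cov Q F r P K Λ h).Ω U, ‖t‖ < s1 →
        ball (sc P K (t, Z U t)) (‖t‖ ^ K / 2) ⊆ ball (cv P (K + 1) t) (‖t‖ ^ K) :=
      fun U t ht hs => ball_subset_ball' (by
        have := mem_ball.1 (sc_mem (P := P) (K := K) (interior_subset ht).2.1
          (mem_ball_zero_iff.1 (y3 U t ht hs).2.2.2))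
        linarith)
    have m2 : ∀ U, ∀ t ∈ (cov Q F r P K Λ h).Ω U, 0 < ‖t‖ ^ K / 2 := fun U t ht =>
      half_pos (pow_pos (norm_pos_iff.2 (interior_subset ht).2.1) K)
    obtain ⟨A1, p1, x1⟩ := unif (c' := cov Q F r P K Λ h) (K := K) (r2 := s1) (A := 2 * C) (n := n)
      (f := fun q => ‖fderiv ℂ (F q.1) (sc P K (q.2, Z q.1 q.2))‖) (fun U t ht hs => by
        have ha : Ad Q r P K Λ U t := ad ht
        have := R266.SCV.norm_fderiv_le_of_ball (f := F U) (M := C) (m2 U t ht)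
          (fun z hz => (dif hW ha (m1 U t ht hs hz)).differentiableWithinAt)
          (fun z hz => hW.bdd U ha.1 z (ha.2.2.2 (m1 U t ht hs hz)))
        rw [le_div_iff₀ (m2 U t ht)] at this
        show _ * ‖t‖ ^ K ≤ _
        linarith) (by
        refine IsBigO.norm_left (cancelO (c := cov Q F r P K Λ h) tendsto_id (m := K) ?_)
        refine IsBigO.trans (IsBigO.of_bound' ?_)
          (IsBigO.sum (s := Finset.univ) fun i _ => (z4 (some i) (K + n)).norm_left)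
        refine (Cov.evF _).2 ⟨s1, hs1, fun U t ht hs => ?_⟩
        have e := fd_sc (dif hW (ad ht) (m1 U t ht hs (mem_ball_self (m2 U t ht))))
        have := norm_comp_P (t ^ K • fderiv ℂ (F U) (sc P K (t, Z U t))) Finset.univ
        rw [show Hn.P (Finset.univ : Finset (ι ⊕ κ)) = ContinuousLinearMap.id ℂ _ from
          ContinuousLinearMap.ext fun v => funext fun i => by simp [P_apply],
          ContinuousLinearMap.comp_id] at this
        refine this.trans (le_trans (le_of_eq ?_) (le_abs_self _))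
        rw [← e, Finset.sum_apply]
        rfl)
    obtain ⟨A2, p2, x2⟩ := unif (c' := cov Q F r P K Λ h) (K := 0) (r2 := s1) (A := C + ‖k 1 0‖)
      (n := n) (f := fun q => ‖F q.1 (sc P K (q.2, Z q.1 q.2)) - k 1 0‖) (fun U t ht hs => by
        have ha : Ad Q r P K Λ U t := ad ht
        rw [pow_zero, mul_one]
        exact (norm_sub_le _ _).trans (add_le_add_left
          (hW.bdd U ha.1 _ (ha.2.2.2 (m1 U t ht hs (mem_ball_self (m2 U t ht))))) _))
      (z4 none n).norm_left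
    exact ⟨A1 + A2, fun U t ht =>
      ⟨(x1 U t ht.1 (hm ht).1).trans (by show _ * ‖t‖ ^ n ≤ _; gcongr; linarith),
        (x2 U t ht.1 (hm ht).1).trans (by show _ * ‖t‖ ^ n ≤ _; gcongr; linarith)⟩⟩
  · have a1 := y4 U V t ht.1 ht'.1 (hm ht).2
    have t0 := norm_pos_iff.2 (interior_subset ht.1).2.1
    have hb : (ball (cv P (K + 1) t) (‖t‖ ^ K)).Nonempty := nonempty_ball.2 (pow_pos t0 K)
    have a2 : (cov Q F r P K Λ h).ε U V t ≤ e := csSup_le (hb.image _) (forall_mem_image.2 he)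
    have a3 : 0 ≤ (cov Q F r P K Λ h).ε U V t :=
      Real.sSup_nonneg (forall_mem_image.2 fun _ _ => norm_nonneg _)
    rw [Cov.g, Real.norm_of_nonneg (mul_nonneg (by positivity) a3)] at a1
    rw [sc, sc, add_sub_add_left_eq_sub, ← smul_sub, norm_smul, norm_pow]
    refine (mul_le_of_le_one_left (norm_nonneg _)
      (pow_le_one₀ t0.le (y3 U t ht.1 (hm ht).1).2.2.1)).trans (a1.trans ?_)
    rw [mul_div_assoc, div_eq_inv_mul, ← inv_pow]
    exact mul_le_mul (le_add_of_nonneg_left hC1.le) (mul_le_mul_of_nonneg_left a2 (by positivity))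
      (mul_nonneg (by positivity) a3) (by positivity)

end Crest.Agent.N250.B2
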