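import Crest.Agent.N250.Cc.Val2
import Crest.Agent.N250.B2.Hn
import Crest.Agent.N250.B2.Gl
import Crest.Agent.N250.St.Inner
import Crest.Agent.N250.Ti.Br
import Crest.Agent.N250.St.Prf
import Crest.Agent.N250.Ov.Main

/-!
# Row 250, block B2 (helper47): no critical formal curve; the gradient inequalities.
-/

set_option autoImplicit false

noncomputable section

namespace Crest.Agent.N250.B2
open Cc Ov Ti

theorem nc2Stmt : NC2Stmt := by
  intro ι κ _ _ _ f m φ M ω d r δ B0 C g C' hB k r1 P hR hW hT hK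
  obtain ⟨q, al, lam, Lam, th, s1, C1, N, f0, Z, h1, h2, h3, h4, h5, h6, h7⟩ :=
    curve3 hW hK.zero hK.ne (hnStmt ι κ ℝ _ _ r _ C' k r1 P hW hT hK)
  obtain ⟨T, R, j0, h8, h9⟩ := bridge h1 h3 h2 h6 d
  have hA : Ov.Adm r δ d Z T 1 := h9.adm hR.r_pos hR.δ_pos le_rfl
  have h14 : Prf m Z T 1 := St.PF.prf_of hR one_pos le_rfl hA (mm_cont hR h3 h6 h8 le_rfl hA)
    (h9.zero.mono_left (Fq_le 1))
    (fun j => (eq_or_ne (P q (Sum.inr j)) 0).imp (fun hj => (h9.high j hj).mono_left (Fq_le 1))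
      fun hj => ⟨(h9.cls j hj).mono le_rfl (Fq_le 1), (h9.ne hj).filter_mono (Fq_le 1)⟩)
    j0 (h9.top.2.mono_left (Fq_le 1)) ((h9.ne h9.top.1).filter_mono (Fq_le 1))
  obtain ⟨G, G', x₀, Φ, γ, φ', M', h15⟩ := ovStmt ι κ f m φ M ω d r δ B0 C g hB P q al lam Lam th s1
    C1 N f0 Z T R 1 hR h1 h3 h4 h5 h6 h7 h8 one_pos le_rfl hA h14
  exact St.st2Stmt _ G G' x₀ 1 Φ γ φ' M' h15

theorem gl2Stmt : GL2Stmt := gl2_of nc2Stmt

end Crest.Agent.N250.B2

end
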